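import Vale.Agent.P262H.Defs

open Finset

namespace Vale.Agent.P262H

variable {d : ℕ} (P : Par d)

lemma Par.σ_pos : 0 < P.σ := by linarith [P.hσ]

include P in
lemma Par.d_pos : (0 : ℝ) < d := by exact_mod_cast P.hd

include P in
lemma Par.d_ge : (1 : ℝ) ≤ d := by exact_mod_cast P.hd

lemma Par.γ_ge : 10 ^ 8 * (d : ℝ) ^ 2 * P.σ ^ 2 ≤ P.γ := P.hγ

lemma Par.γ_big : 4 * 10 ^ 8 ≤ P.γ := by
  have h1 := P.d_ge
  have h2 := P.hσ
  have h3 : (1 : ℝ) ≤ (d : ℝ) ^ 2 := by nlinarith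
  have h4 : (4 : ℝ) ≤ P.σ ^ 2 := by nlinarith
  have := P.hγ
  nlinarith [mul_le_mul h3 h4 (by norm_num) (by positivity)]

lemma Par.γ_pos : 0 < P.γ := by linarith [P.γ_big]

lemma Par.γ_ge_σ : 10 ^ 8 * P.σ ^ 2 ≤ P.γ := by
  have h1 := P.d_ge
  have h3 : (1 : ℝ) ≤ (d : ℝ) ^ 2 := by nlinarith
  have := P.hγ
  nlinarith [sq_nonneg P.σ]

lemma Par.γ_ge_d : 10 ^ 8 * (d : ℝ) ^ 2 * 4 ≤ P.γ := by
  have h2 := P.hσ
  have h4 : (4 : ℝ) ≤ P.σ ^ 2 := by nlinarith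
  have := P.hγ
  have h5 := sq_nonneg (d : ℝ)
  nlinarith

lemma Par.lam_nonneg (i : Fin d) (ℓ : ℕ) : 0 ≤ P.lam i ℓ := by
  unfold Par.lam
  exact div_nonneg (P.hΛ i) (by positivity)

lemma Par.lam_succ (i : Fin d) (ℓ : ℕ) : P.lam i (ℓ + 1) = P.lam i ℓ / 2 := by
  unfold Par.lam
  rw [pow_succ]
  field_simp

lemma Par.lam_zero (i : Fin d) : P.lam i 0 = P.Λ i := by
  simp [Par.lam]

lemma Par.s_pos (i : Fin d) (ℓ : ℕ) : 0 < P.lam i ℓ + 4 * P.σ ^ 2 := by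
  have := P.lam_nonneg i ℓ
  have := P.σ_pos
  positivity

lemma Par.tau_pos (i : Fin d) (ℓ : ℕ) : 0 < P.tau i ℓ := by
  unfold Par.tau
  exact Real.sqrt_pos.mpr (Real.sqrt_pos.mpr (P.s_pos i ℓ))

lemma Par.tau_sq (i : Fin d) (ℓ : ℕ) : P.tau i ℓ ^ 2 = √(P.lam i ℓ + 4 * P.σ ^ 2) := by
  unfold Par.tau
  exact Real.sq_sqrt (Real.sqrt_nonneg _)

lemma Par.tau_four (i : Fin d) (ℓ : ℕ) : P.tau i ℓ ^ 4 = P.lam i ℓ + 4 * P.σ ^ 2 := by
  have : P.tau i ℓ ^ 4 = (P.tau i ℓ ^ 2) ^ 2 := by ring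
  rw [this, P.tau_sq]
  exact Real.sq_sqrt (P.s_pos i ℓ).le

/-- The scale drops by at most `4 ^ (1/4)` per pair from one level to the next. -/
lemma Par.tau_step (i j : Fin d) (ℓ : ℕ) :
    7 / 2 * (P.tau i ℓ * P.tau j ℓ) ≤ 5 * (P.tau i (ℓ + 1) * P.tau j (ℓ + 1)) := by
  have hx : 0 < P.tau i ℓ * P.tau j ℓ := mul_pos (P.tau_pos i ℓ) (P.tau_pos j ℓ)
  have hy : 0 < P.tau i (ℓ + 1) * P.tau j (ℓ + 1) := mul_pos (P.tau_pos _ _) (P.tau_pos _ _)
  have h4 : (P.tau i ℓ * P.tau j ℓ) ^ 4 ≤ 4 * (P.tau i (ℓ + 1) * P.tau j (ℓ + 1)) ^ 4 := by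
    rw [mul_pow, mul_pow, P.tau_four, P.tau_four, P.tau_four, P.tau_four, P.lam_succ, P.lam_succ]
    have hi := P.lam_nonneg i ℓ
    have hj := P.lam_nonneg j ℓ
    have hs := sq_nonneg P.σ
    have h1 : P.lam i ℓ + 4 * P.σ ^ 2 ≤ 2 * (P.lam i ℓ / 2 + 4 * P.σ ^ 2) := by linarith
    have h2 : P.lam j ℓ + 4 * P.σ ^ 2 ≤ 2 * (P.lam j ℓ / 2 + 4 * P.σ ^ 2) := by linarith
    have := mul_le_mul h1 h2 (by positivity) (by positivity)
    linarith
  by_contra hcon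
  push Not at hcon
  have h5 : (5 * (P.tau i (ℓ + 1) * P.tau j (ℓ + 1))) ^ 4 < (7 / 2 * (P.tau i ℓ * P.tau j ℓ)) ^ 4 :=
    pow_lt_pow_left₀ hcon (by positivity) (by norm_num)
  rw [mul_pow, mul_pow] at h5
  have h6 : 0 < (P.tau i (ℓ + 1) * P.tau j (ℓ + 1)) ^ 4 := by positivity
  norm_num at h5
  nlinarith

/-- Corrected coordinates: `tau ^ 4 ≤ 2 lam`. -/
lemma Par.tau_four_corr {i : Fin d} {ℓ : ℕ} (h : P.γ ≤ P.lam i ℓ) : P.tau i ℓ ^ 4 ≤ 2 * P.lam i ℓ := by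
  rw [P.tau_four]
  have := P.γ_ge_σ
  have := sq_nonneg P.σ
  nlinarith

/-- Frozen coordinates: `tau ^ 4 ≤ 2 γ`. -/
lemma Par.tau_four_froz {i : Fin d} {ℓ : ℕ} (h : P.lam i ℓ < P.γ) : P.tau i ℓ ^ 4 ≤ 2 * P.γ := by
  rw [P.tau_four]
  have := P.γ_ge_σ
  have := sq_nonneg P.σ
  nlinarith

/-- From the near-diagonal invariant: the diagonal energy is at most `2 tau ^ 4`. -/
lemma Par.diag_le {i : Fin d} {ℓ : ℕ} {m : ℝ} (h : |m - P.lam i ℓ| ≤ 5 * (P.tau i ℓ * P.tau i ℓ)) :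
    m ≤ 2 * P.tau i ℓ ^ 4 := by
  have h1 := (abs_le.mp h).2
  have h2 := P.tau_four i ℓ
  have h3 := P.lam_nonneg i ℓ
  have h4 := P.hσ
  have h5 : 5 * (P.tau i ℓ * P.tau i ℓ) ≤ P.tau i ℓ ^ 4 + 4 * P.σ ^ 2 := by
    have : 16 ≤ 4 * P.σ ^ 2 := by nlinarith
    nlinarith [sq_nonneg (P.tau i ℓ ^ 2 - 5 / 2)]
  nlinarith

/-- Newly frozen coordinates have energy at most `2 γ`. -/
lemma Par.frozen_energy {i : Fin d} {ℓ : ℕ} (hl : P.lam i ℓ < P.γ) {m : ℝ}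
    (h : |m - P.lam i ℓ| ≤ 5 * (P.tau i ℓ * P.tau i ℓ)) : m ≤ 2 * P.γ := by
  have h1 := (abs_le.mp h).2
  have h2 := P.tau_four_froz hl
  have hγ := P.γ_big
  have h5 : 5 * (P.tau i ℓ * P.tau i ℓ) ≤ P.γ := by
    have h6 : (P.tau i ℓ * P.tau i ℓ) ^ 2 ≤ 2 * P.γ := by
      calc (P.tau i ℓ * P.tau i ℓ) ^ 2 = P.tau i ℓ ^ 4 := by ring
        _ ≤ _ := h2
    have h7 : 0 < P.tau i ℓ * P.tau i ℓ := mul_pos (P.tau_pos _ _) (P.tau_pos _ _)
    nlinarith [sq_nonneg (P.tau i ℓ * P.tau i ℓ - P.γ / 5)]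
  linarith

/-! ### Thresholds -/

lemma Par.theta_of_ge {g : ℝ} (h : 12 * P.σ ≤ g) : P.theta g = 1 := by
  unfold Par.theta
  simp [h]

lemma Par.theta_of_lt {g : ℝ} (h : g < 12 * P.σ) :
    P.theta g = max ((g / (12 * P.σ)) ^ 2) (g / (2 * √(d : ℝ) * (12 * P.σ))) := by
  unfold Par.theta
  simp [not_le.mpr h]

include P in
lemma Par.sqrtd_ge : 1 ≤ √(d : ℝ) := by
  rw [Real.one_le_sqrt]
  exact P.d_ge

lemma Par.theta_pos {g : ℝ} (hg : 0 < g) : 0 < P.theta g := by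
  unfold Par.theta
  have hσ := P.σ_pos
  split_ifs
  · norm_num
  · exact lt_max_of_lt_left (by positivity)

lemma Par.theta_le_one {g : ℝ} (hg : 0 < g) : P.theta g ≤ 1 := by
  unfold Par.theta
  have hσ := P.σ_pos
  have hd := P.sqrtd_ge
  split_ifs with h
  · exact le_rfl
  · push Not at h
    have h1 : g / (12 * P.σ) < 1 := by rw [div_lt_one (by positivity)]; exact h
    have h0 : 0 < g / (12 * P.σ) := by positivity
    apply max_le
    · nlinarith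
    · have h2 : g / (2 * √(d : ℝ) * (12 * P.σ)) = g / (12 * P.σ) / (2 * √(d : ℝ)) := by
        field_simp
      rw [h2, div_le_one (by positivity)]
      nlinarith

lemma Par.theta_mono {g g' : ℝ} (hg' : 0 < g') (hgg : g' ≤ g) : P.theta g' ≤ P.theta g := by
  by_cases h : 12 * P.σ ≤ g
  · rw [P.theta_of_ge h]
    exact P.theta_le_one hg'
  · push Not at h
    have hσ := P.σ_pos
    have hd := P.sqrtd_ge
    rw [P.theta_of_lt h, P.theta_of_lt (lt_of_le_of_lt hgg h)]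
    apply max_le_max
    · apply pow_le_pow_left₀ (by positivity)
      exact div_le_div_of_nonneg_right hgg (by positivity)
    · exact div_le_div_of_nonneg_right hgg (by positivity)

/-- Smallness factor of the position noise. -/
noncomputable def mm (d : ℕ) (t : ℝ) : ℝ := min 1 (√(2 * (d : ℝ) * t))

/-- Smallness factor of the energy noise. -/
noncomputable def nn (d : ℕ) (t : ℝ) : ℝ := min (√t) (2 * √(d : ℝ) * t)

include P in
lemma Par.mm_pos {t : ℝ} (ht : 0 < t) : 0 < mm d t := by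
  unfold mm
  have := P.d_pos
  exact lt_min (by norm_num) (Real.sqrt_pos.mpr (by positivity))

include P in
lemma Par.nn_pos {t : ℝ} (ht : 0 < t) : 0 < nn d t := by
  unfold nn
  have := P.sqrtd_ge
  exact lt_min (Real.sqrt_pos.mpr ht) (by positivity)

/-- The energy noise is at most one twelfth of the energy bound. -/
lemma Par.nn_theta {g : ℝ} (hg : 0 < g) : P.σ * nn d (P.theta g) ≤ g / 12 := by
  have hσ := P.σ_pos
  have hd := P.sqrtd_ge
  by_cases h : 12 * P.σ ≤ g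
  · rw [P.theta_of_ge h]
    have : nn d 1 ≤ 1 := by
      unfold nn
      simp
    nlinarith
  · push Not at h
    set β := g / (12 * P.σ) with hβ
    have hβ0 : 0 < β := by positivity
    have hgβ : g = 12 * P.σ * β := by
      rw [hβ]; field_simp
    rw [P.theta_of_lt h]
    have e2 : g / (2 * √(d : ℝ) * (12 * P.σ)) = β / (2 * √(d : ℝ)) := by
      rw [hβ]; field_simp
    rw [e2]
    have key : nn d (max (β ^ 2) (β / (2 * √(d : ℝ)))) ≤ β := by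
      unfold nn
      rcases le_total (β ^ 2) (β / (2 * √(d : ℝ))) with h1 | h1
      · rw [max_eq_right h1]
        refine (min_le_right _ _).trans (le_of_eq ?_)
        field_simp
      · rw [max_eq_left h1]
        refine (min_le_left _ _).trans (le_of_eq ?_)
        exact Real.sqrt_sq hβ0.le
    have e3 : g / 12 = P.σ * β := by
      have : g / 12 = (12 * P.σ * β) / 12 := by rw [← hgβ]
      rw [this]; ring
    rw [e3]
    exact mul_le_mul_of_nonneg_left key hσ.le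

/-- The threshold is at least the square of the scaled energy. -/
lemma Par.sqrt_theta_ge {g : ℝ} (_hg : 0 < g) (h : g < 12 * P.σ) : g / (12 * P.σ) ≤ √(P.theta g) := by
  have hσ := P.σ_pos
  rw [P.theta_of_lt h]
  apply Real.le_sqrt_of_sq_le
  exact le_max_left _ _

/-- Big entries per level: the new total variation is at most `12 σ`. -/
lemma Par.tv_le {g : ℝ} (hg : 0 < g) (h : g < 12 * P.σ) : g / √(P.theta g) ≤ 12 * P.σ := by
  have hσ := P.σ_pos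
  have h1 := P.sqrt_theta_ge hg h
  have h2 : 0 < √(P.theta g) := Real.sqrt_pos.mpr (P.theta_pos hg)
  rw [div_le_iff₀ h2]
  rw [div_le_iff₀ (by positivity)] at h1
  linarith

end Vale.Agent.P262H
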