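import Mathlib

open Finset

namespace Vale.Agent.P262H

/-- Parameters of the top-down splitting. `Λ` holds the eigenvalues of the second moment matrix. -/
structure Par (d : ℕ) where
  σ : ℝ
  γ : ℝ
  b : ℝ
  astar : ℕ
  Λ : Fin d → ℝ
  hd : 1 ≤ d
  hσ : 2 ≤ σ
  hσ0 : 6.6 * √(Real.log (2 * ((d : ℝ) + 1) ^ 2)) ≤ σ
  hΛ : ∀ i, 0 ≤ Λ i
  hγ : 10 ^ 8 * (d : ℝ) ^ 2 * σ ^ 2 ≤ γ
  hstar : γ / (6 * σ) * (3 / 5 : ℝ) ^ astar ≤ 1 / (2 * √(d : ℝ))
  hb : σ + (25 * σ * (astar : ℝ) + 225 / 2 * σ) + 17 * σ * ((d : ℝ) * (5 / 2 * √(2 / γ))) ≤ b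
  hbγ : b ≤ √γ

variable {d : ℕ} (P : Par d)

/-- Energy of coordinate `i` in a block of level `ℓ` according to the ideal proportional split. -/
noncomputable def Par.lam (i : Fin d) (ℓ : ℕ) : ℝ := P.Λ i / 2 ^ ℓ

/-- Fourth root scale in the near-diagonal invariant: `tau ^ 4 = lam + 4 σ ^ 2`. -/
noncomputable def Par.tau (i : Fin d) (ℓ : ℕ) : ℝ := √(√(P.lam i ℓ + 4 * P.σ ^ 2))

/-- Number of levels since coordinate `i` stopped being corrected. -/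
noncomputable def Par.age (i : Fin d) : ℕ → ℕ
  | 0 => 0
  | ℓ + 1 => if P.γ ≤ P.lam i ℓ then 0 else Par.age i ℓ + 1

/-- Bound for the energy of the small entries of a frozen coordinate. -/
noncomputable def Par.Gam (i : Fin d) (ℓ : ℕ) : ℝ := 2 * P.γ * (3 / 5 : ℝ) ^ P.age i ℓ

/-- Threshold as a function of the energy bound. -/
noncomputable def Par.theta (g : ℝ) : ℝ :=
  if 12 * P.σ ≤ g then 1 else max ((g / (12 * P.σ)) ^ 2) (g / (2 * √(d : ℝ) * (12 * P.σ)))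

/-- Threshold for coordinate `i` at level `ℓ`. -/
noncomputable def Par.th (i : Fin d) (ℓ : ℕ) : ℝ := P.theta (P.Gam i ℓ)

/-- Lyapunov function of the age. -/
noncomputable def Par.W (a : ℕ) : ℝ :=
  if a < P.astar then 25 * P.σ * ((P.astar : ℝ) - a) + 225 / 2 * P.σ
  else 225 / 2 * P.σ * (7 / 9 : ℝ) ^ (a - P.astar)

/-- Lyapunov function of the level, one coordinate. -/
noncomputable def Par.om (k : Fin d) (ℓ : ℕ) : ℝ :=
  if P.γ ≤ P.lam k ℓ then 5 / 2 * (√(2 / P.γ) - 1 / √(P.lam k ℓ)) else 0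

/-- Lyapunov function of the level. -/
noncomputable def Par.Om (ℓ : ℕ) : ℝ := 17 * P.σ * ∑ k, P.om k ℓ

/-- Sum of inverse square roots over the corrected coordinates. -/
noncomputable def Par.rho (ℓ : ℕ) : ℝ :=
  ∑ k, if P.γ ≤ P.lam k ℓ then 1 / √(P.lam k ℓ) else 0

variable {ι : Type*} [DecidableEq ι] (α : ι → Fin d → ℝ)

/-- Energy of the small entries of coordinate `i` in the block `B`. -/
noncomputable def Par.Sm (i : Fin d) (ℓ : ℕ) (B : Finset ι) : ℝ :=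
  ∑ v ∈ B with α v i ^ 2 ≤ P.th i ℓ, α v i ^ 2

/-- Sum of the big entries of coordinate `i` in the block `B`. -/
noncomputable def Par.Gb (i : Fin d) (ℓ : ℕ) (B : Finset ι) : ℝ :=
  ∑ v ∈ B with ¬ α v i ^ 2 ≤ P.th i ℓ, α v i

/-- Total variation of the big entries of coordinate `i` in the block `B`. -/
noncomputable def Par.Tb (i : Fin d) (ℓ : ℕ) (B : Finset ι) : ℝ :=
  ∑ v ∈ B with ¬ α v i ^ 2 ≤ P.th i ℓ, |α v i|

/-- Invariants of a node: block `B` at level `ℓ` with end positions `p`, `q`. -/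
structure Par.Inv (ℓ : ℕ) (B : Finset ι) (p q : Fin d → ℝ) : Prop where
  hq : ∀ i, q i - p i = ∑ v ∈ B, α v i
  hE : ∀ i j, |∑ v ∈ B, α v i * α v j - (if i = j then P.lam i ℓ else 0)| ≤ 5 * (P.tau i ℓ * P.tau j ℓ)
  hS : ∀ i, P.lam i ℓ < P.γ → P.Sm α i ℓ B ≤ P.Gam i ℓ
  hC : ∀ i, P.γ ≤ P.lam i ℓ → |p i| ≤ P.σ ∧ |q i| ≤ P.σ
  hF : ∀ i, P.lam i ℓ < P.γ →
    max |p i| |q i - P.Gb α i ℓ B| + P.Tb α i ℓ B + P.W (P.age i ℓ) + P.Om ℓ ≤ P.b

end Vale.Agent.P262H
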