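import Vale.Agent.P262.FBFinal

open MeasureTheory ProbabilityTheory Finset

namespace Vale.Agent.P262H

open Vale.Agent.P262.FB (Eu Adm fb_main)

variable {D : ℕ}

lemma exp_coord_integrable (a : ℝ) (e : Fin D) :
    Integrable (fun z : Eu D => Real.exp (a * z e)) (stdGaussian (Eu D)) := by
  rw [← map_pi_eq_stdGaussian]
  have hm : Measurable (WithLp.toLp 2 : (Fin D → ℝ) → Eu D) :=
    (PiLp.continuous_toLp 2 _).measurable
  have hc : Continuous (fun z : Eu D => Real.exp (a * z e)) := by fun_prop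
  rw [integrable_map_measure hc.aestronglyMeasurable hm.aemeasurable]
  have hp := measurePreserving_eval (fun _ : Fin D => gaussianReal 0 1) e
  have hc2 : Continuous (fun x : ℝ => Real.exp (a * x)) := by fun_prop
  exact (hp.integrable_comp hc2.aestronglyMeasurable).mpr (integrable_exp_mul_gaussianReal a)

lemma exp_coord_integral (a : ℝ) (e : Fin D) :
    ∫ z : Eu D, Real.exp (a * z e) ∂(stdGaussian (Eu D)) = Real.exp (a ^ 2 / 2) := by
  rw [← map_pi_eq_stdGaussian]
  have hm : Measurable (WithLp.toLp 2 : (Fin D → ℝ) → Eu D) :=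
    (PiLp.continuous_toLp 2 _).measurable
  have hc : Continuous (fun z : Eu D => Real.exp (a * z e)) := by fun_prop
  rw [integral_map hm.aemeasurable hc.aestronglyMeasurable]
  have hp := measurePreserving_eval (fun _ : Fin D => gaussianReal 0 1) e
  have hc2 : Continuous (fun x : ℝ => Real.exp (a * x)) := by fun_prop
  have h1 : ∫ y : Fin D → ℝ, Real.exp (a * y e) ∂(Measure.pi fun _ => gaussianReal 0 1)
      = ∫ x, Real.exp (a * x) ∂(gaussianReal 0 1) := by
    have h0 := integral_map (μ := Measure.pi fun _ : Fin D => gaussianReal 0 1) hp.aemeasurable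
      (f := fun x : ℝ => Real.exp (a * x)) hc2.aestronglyMeasurable
    rw [hp.map_eq] at h0
    exact h0.symm
  refine Eq.trans h1 ?_
  have h2 := congrFun (mgf_id_gaussianReal (μ := 0) (v := 1)) a
  simp only [mgf, id] at h2
  rw [h2]
  congr 1
  simp

/-- One exponential term. -/
lemma adm_exp (c b : ℝ) (hc : 0 ≤ c) (e : Fin D) : Adm (fun z : Eu D => c * Real.exp (b * z e)) where
  convex := by
    refine ⟨convex_univ, fun x _ y _ r s hr hs hrs => ?_⟩
    have h := convexOn_exp.2 (Set.mem_univ (b * x e)) (Set.mem_univ (b * y e)) hr hs hrs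
    simp only [smul_eq_mul] at h ⊢
    have e1 : b * (r • x + s • y) e = r * (b * x e) + s * (b * y e) := by
      simp only [PiLp.add_apply, PiLp.smul_apply, smul_eq_mul]
      ring
    rw [e1]
    nlinarith [mul_le_mul_of_nonneg_left h hc]
  nonneg := fun z => mul_nonneg hc (Real.exp_pos _).le
  integ := by
    intro v
    have h := (exp_coord_integrable (D := D) b e).const_mul (c * Real.exp (b * v e))
    refine h.congr (Filter.Eventually.of_forall fun z => ?_)
    simp only [PiLp.add_apply]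
    rw [mul_add, Real.exp_add]
    ring

/-- The potential. -/
noncomputable def Pot (t : ℝ) (x : Fin D → ℝ) : ℝ :=
  ∑ e, (Real.exp (t * x e) + Real.exp (-(t * x e)))

lemma Pot_nonneg (t : ℝ) (x : Fin D → ℝ) : 0 ≤ Pot t x :=
  Finset.sum_nonneg fun _ _ => add_nonneg (Real.exp_pos _).le (Real.exp_pos _).le

/-- The potential after a Gaussian shift, as a function of the Gaussian point. -/
noncomputable def GPot (t ρ : ℝ) (x : Fin D → ℝ) (z : Eu D) : ℝ :=
  ∑ e, (Real.exp (t * x e) * Real.exp ((t * ρ) * z e)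
    + Real.exp (-(t * x e)) * Real.exp ((-(t * ρ)) * z e))

lemma GPot_eq (t ρ : ℝ) (x : Fin D → ℝ) (z : Eu D) :
    GPot t ρ x z = Pot t (fun e => x e + ρ * z e) := by
  unfold GPot Pot
  refine Finset.sum_congr rfl fun e _ => ?_
  rw [← Real.exp_add, ← Real.exp_add]
  congr 2 <;> ring

lemma GPot_adm (t ρ : ℝ) (x : Fin D → ℝ) : Adm (GPot t ρ x) := by
  unfold GPot
  have := Vale.Agent.P262.FB.Adm.sum (E := Eu D) (Finset.univ : Finset (Fin D))
    (fun e z => Real.exp (t * x e) * Real.exp ((t * ρ) * z e)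
      + Real.exp (-(t * x e)) * Real.exp ((-(t * ρ)) * z e))
    (fun e _ => (adm_exp _ _ (Real.exp_pos _).le e).add (adm_exp _ _ (Real.exp_pos _).le e))
  exact this

lemma GPot_integral (t ρ : ℝ) (x : Fin D → ℝ) :
    ∫ z, GPot t ρ x z ∂(stdGaussian (Eu D)) = Pot t x * Real.exp ((t * ρ) ^ 2 / 2) := by
  unfold GPot Pot
  rw [integral_finsetSum]
  · rw [Finset.sum_mul]
    refine Finset.sum_congr rfl fun e _ => ?_
    rw [integral_add ((exp_coord_integrable _ e).const_mul _) ((exp_coord_integrable _ e).const_mul _),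
      integral_const_mul, integral_const_mul, exp_coord_integral, exp_coord_integral]
    have : (-(t * ρ)) ^ 2 = (t * ρ) ^ 2 := by ring
    rw [this]
    ring
  · intro e _
    exact ((exp_coord_integrable _ e).const_mul _).add ((exp_coord_integrable _ e).const_mul _)

/-- One application of the N-free signing theorem. -/
theorem sign_step (n : ℕ) (l : ℕ → Fin D → ℝ) (hl : ∀ j, ∑ e, l j e ^ 2 ≤ 1) (t h : ℝ)
    (x : Fin D → ℝ) :
    ∃ ε : ℕ → ℝ, (∀ i, ε i = 1 ∨ ε i = -1) ∧
      Pot t (fun e => x e + h * ∑ j ∈ range n, ε j * l j e)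
        ≤ Pot t x * Real.exp (50 / 9 * t ^ 2 * h ^ 2) := by
  cases n with
  | zero =>
    refine ⟨fun _ => 1, fun _ => Or.inl rfl, ?_⟩
    simp only [range_zero, Finset.sum_empty, mul_zero, add_zero]
    have h1 : 1 ≤ Real.exp (50 / 9 * t ^ 2 * h ^ 2) := Real.one_le_exp (by positivity)
    nlinarith [Pot_nonneg t x]
  | succ m =>
    set ρ : ℝ := h / (3 / 10) with hρ
    let u : ℕ → Eu D := fun j => (3 / 10 : ℝ) • WithLp.toLp 2 (l j)
    have hu : ∀ i, ‖u i‖ ≤ 3 / 10 := by
      intro i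
      have h0 : ‖(WithLp.toLp 2 (l i) : Eu D)‖ ≤ 1 := by
        have h1 : ‖(WithLp.toLp 2 (l i) : Eu D)‖ ^ 2 ≤ 1 := by
          rw [EuclideanSpace.real_norm_sq_eq]
          exact hl i
        nlinarith [norm_nonneg (WithLp.toLp 2 (l i) : Eu D)]
      simp only [u]
      rw [norm_smul, Real.norm_eq_abs, abs_of_pos (by norm_num : (0 : ℝ) < 3 / 10)]
      nlinarith [norm_nonneg (WithLp.toLp 2 (l i) : Eu D)]
    let g : ℕ → Eu D → ℝ := fun s z => if s = m then GPot t ρ x z else 0
    have hg : ∀ i, Adm (g i) := by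
      intro i
      by_cases hi : i = m
      · simp only [g, hi, if_true]
        exact GPot_adm t ρ x
      · simp only [g, hi, if_false]
        exact Vale.Agent.P262.FB.Adm.zero
    obtain ⟨ε, hε, hsum⟩ := fb_main u g hu hg (m + 1)
    refine ⟨ε, hε, ?_⟩
    have hL : ∑ s ∈ range (m + 1), g s (∑ i ∈ range (s + 1), ε i • u i)
        = GPot t ρ x (∑ i ∈ range (m + 1), ε i • u i) := by
      rw [Finset.sum_eq_single m]
      · simp [g]
      · intro b _ hb
        simp [g, hb]
      · simp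
    have hR : ∑ s ∈ range (m + 1), ∫ z, g s z ∂(stdGaussian (Eu D))
        = Pot t x * Real.exp ((t * ρ) ^ 2 / 2) := by
      rw [Finset.sum_eq_single m]
      · simp only [g, if_true]
        exact GPot_integral t ρ x
      · intro b _ hb
        simp [g, hb]
      · simp
    rw [hL, hR, GPot_eq] at hsum
    have e1 : (fun e => x e + ρ * (∑ i ∈ range (m + 1), ε i • u i) e)
        = (fun e => x e + h * ∑ j ∈ range (m + 1), ε j * l j e) := by
      funext e
      congr 1
      have : (∑ i ∈ range (m + 1), ε i • u i) e = ∑ i ∈ range (m + 1), ε i * ((3 / 10 : ℝ) * l i e) := by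
        rw [WithLp.ofLp_sum]
        simp [u, Finset.sum_apply]
      rw [this, hρ, Finset.mul_sum, Finset.mul_sum]
      refine Finset.sum_congr rfl fun j _ => ?_
      field_simp
    rw [e1] at hsum
    refine hsum.trans (le_of_eq ?_)
    congr 2
    rw [hρ]
    field_simp
    ring

variable {ι : Type*} [DecidableEq ι]

/-- The signing step indexed by a finite set. -/
theorem sign_step_set (S : Finset ι) (l : ι → Fin D → ℝ) (hl : ∀ v, ∑ e, l v e ^ 2 ≤ 1) (t h : ℝ)
    (x : Fin D → ℝ) :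
    ∃ ε : ι → ℝ, (∀ v, ε v = 1 ∨ ε v = -1) ∧
      Pot t (fun e => x e + h * ∑ v ∈ S, ε v * l v e)
        ≤ Pot t x * Real.exp (50 / 9 * t ^ 2 * h ^ 2) := by
  classical
  let n := S.card
  let f : Fin n ≃ S := S.equivFin.symm
  let l' : ℕ → Fin D → ℝ := fun j => if hj : j < n then l (f ⟨j, hj⟩).1 else 0
  have hl' : ∀ j, ∑ e, l' j e ^ 2 ≤ 1 := by
    intro j
    by_cases hj : j < n
    · simp only [l', hj, dif_pos]
      exact hl _
    · simp [l', hj]
  obtain ⟨ε, hε, hb⟩ := sign_step n l' hl' t h x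
  let ε' : ι → ℝ := fun v => if hv : v ∈ S then ε (S.equivFin ⟨v, hv⟩).1 else 1
  refine ⟨ε', ?_, ?_⟩
  · intro v
    by_cases hv : v ∈ S
    · simp only [ε', hv, dif_pos]
      exact hε _
    · simp [ε', hv]
  · have e1 : ∀ e, ∑ j ∈ range n, ε j * l' j e = ∑ v ∈ S, ε' v * l v e := by
      intro e
      rw [Finset.sum_range, ← Finset.sum_coe_sort S, ← Equiv.sum_comp f]
      refine Finset.sum_congr rfl fun j _ => ?_
      have hv : (f j).1 ∈ S := (f j).2
      simp only [l', j.2, dif_pos, ε', hv]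
      have : S.equivFin ⟨(f j).1, hv⟩ = j := by
        simp [f]
      rw [this]
    simp only [e1] at hb
    exact hb

/-- Digit by digit rounding of a dyadic fractional start. -/
theorem digits (B : Finset ι) (l : ι → Fin D → ℝ) (hl : ∀ v, ∑ e, l v e ^ 2 ≤ 1) (t : ℝ) (K : ℕ) :
    ∀ (y : ι → ℝ), (∀ v ∈ B, 0 ≤ y v ∧ y v ≤ 1 ∧ ∃ m : ℤ, y v * 2 ^ K = m) → ∀ x : Fin D → ℝ,
      ∃ L ⊆ B, Pot t (fun e => x e + ∑ v ∈ B, ((if v ∈ L then 1 else 0) - y v) * l v e)
        ≤ Pot t x * Real.exp (50 / 9 * t ^ 2 * ∑ k ∈ range K, (1 / 4 : ℝ) ^ (k + 1)) := by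
  classical
  induction K with
  | zero =>
    intro y hy x
    refine ⟨B.filter (fun v => y v = 1), Finset.filter_subset _ _, ?_⟩
    have h0 : ∀ v ∈ B, ((if v ∈ B.filter (fun v => y v = 1) then 1 else 0) - y v) = 0 := by
      intro v hv
      obtain ⟨h1, h2, m, hm⟩ := hy v hv
      simp only [pow_zero, mul_one] at hm
      have hm0 : (0 : ℤ) ≤ m := by
        have : (0 : ℝ) ≤ m := hm ▸ h1
        exact_mod_cast this
      have hm1 : m ≤ 1 := by
        have : (m : ℝ) ≤ 1 := hm ▸ h2
        exact_mod_cast this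
      have hcases : m = 0 ∨ m = 1 := by omega
      rcases hcases with rfl | rfl
      · have : y v = 0 := by simpa using hm
        simp [this, hv]
      · have : y v = 1 := by simpa using hm
        simp [this, hv]
    have e1 : ∀ e, ∑ v ∈ B, ((if v ∈ B.filter (fun v => y v = 1) then (1 : ℝ) else 0) - y v) * l v e = 0 := by
      intro e
      refine Finset.sum_eq_zero fun v hv => ?_
      rw [h0 v hv, zero_mul]
    simp only [e1, add_zero, range_zero, Finset.sum_empty, mul_zero, Real.exp_zero, mul_one]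
    exact le_rfl
  | succ K ih =>
    intro y hy x
    set h : ℝ := (1 / 2 : ℝ) ^ (K + 1) with hh
    have hh0 : 0 < h := by positivity
    have hh2 : h * 2 ^ (K + 1) = 1 := by
      rw [hh, ← mul_pow]; norm_num
    let S := B.filter (fun v => ∃ m : ℤ, Odd m ∧ y v * 2 ^ (K + 1) = m)
    obtain ⟨ε, hε, hb⟩ := sign_step_set S l hl t h x
    let y' : ι → ℝ := fun v => if v ∈ S then y v + h * ε v else y v
    have hy' : ∀ v ∈ B, 0 ≤ y' v ∧ y' v ≤ 1 ∧ ∃ m : ℤ, y' v * 2 ^ K = m := by
      intro v hv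
      obtain ⟨h1, h2, m, hm⟩ := hy v hv
      have h2K : (0 : ℝ) < 2 ^ K := by positivity
      have hpow : (2 : ℝ) ^ (K + 1) = 2 * 2 ^ K := by rw [pow_succ]; ring
      by_cases hvS : v ∈ S
      · obtain ⟨-, m', hodd, hm'⟩ := Finset.mem_filter.mp hvS
        have hm'0 : (0 : ℝ) ≤ m' := by rw [← hm']; positivity
        have hm'0' : (0 : ℤ) ≤ m' := by exact_mod_cast hm'0
        have hm'1 : (m' : ℝ) ≤ 2 ^ (K + 1) := by
          rw [← hm']
          have : (0 : ℝ) < 2 ^ (K + 1) := by positivity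
          nlinarith
        have hm'1' : m' ≤ 2 ^ (K + 1) := by exact_mod_cast hm'1
        obtain ⟨c, hc⟩ := hodd
        have hev : (2 : ℤ) ^ (K + 1) = 2 * 2 ^ K := by rw [pow_succ]; ring
        have hlo : (1 : ℤ) ≤ m' := by omega
        have hhi : m' + 1 ≤ 2 ^ (K + 1) := by omega
        have hlo' : (1 : ℝ) ≤ m' := by exact_mod_cast hlo
        have hhi' : (m' : ℝ) + 1 ≤ 2 ^ (K + 1) := by exact_mod_cast hhi
        have hyv : y v = m' * h := by
          have : y v * (2 ^ (K + 1) * h) = m' * h := by rw [← mul_assoc, hm']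
          rw [mul_comm (2 ^ (K + 1) : ℝ) h, hh2, mul_one] at this
          exact this
        simp only [y', hvS, if_true]
        rcases hε v with he | he
        · rw [he]
          refine ⟨by positivity, ?_, c + 1, ?_⟩
          · rw [hyv]
            have : ((m' : ℝ) + 1) * h ≤ 2 ^ (K + 1) * h := mul_le_mul_of_nonneg_right hhi' hh0.le
            rw [mul_comm ((2 : ℝ) ^ (K + 1)) h, hh2] at this
            linarith
          · have e1 : h * 2 ^ K = 1 / 2 := by
              rw [hh, pow_succ, mul_assoc, mul_comm, mul_assoc, ← mul_pow]; norm_num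
            have e2 : (m' : ℝ) = 2 * c + 1 := by rw [hc]; push_cast; ring
            have e3 : y v * 2 ^ K = m' / 2 := by
              have : y v * (2 * 2 ^ K) = m' := by rw [← hpow]; exact hm'
              linarith
            calc (y v + h * 1) * 2 ^ K = y v * 2 ^ K + h * 2 ^ K := by ring
              _ = _ := by rw [e1, e3, e2]; push_cast; ring
        · rw [he]
          refine ⟨?_, ?_, c, ?_⟩
          · rw [hyv]
            have : (1 : ℝ) * h ≤ m' * h := mul_le_mul_of_nonneg_right hlo' hh0.le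
            linarith
          · linarith
          · have e1 : h * 2 ^ K = 1 / 2 := by
              rw [hh, pow_succ, mul_assoc, mul_comm, mul_assoc, ← mul_pow]; norm_num
            have e2 : (m' : ℝ) = 2 * c + 1 := by rw [hc]; push_cast; ring
            have e3 : y v * 2 ^ K = m' / 2 := by
              have : y v * (2 * 2 ^ K) = m' := by rw [← hpow]; exact hm'
              linarith
            calc (y v + h * (-1)) * 2 ^ K = y v * 2 ^ K - h * 2 ^ K := by ring
              _ = _ := by rw [e1, e3, e2]; ring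
      · simp only [y', hvS, if_false]
        refine ⟨h1, h2, ?_⟩
        have hnot : ¬ ∃ m : ℤ, Odd m ∧ y v * 2 ^ (K + 1) = m := by
          intro hex
          exact hvS (Finset.mem_filter.mpr ⟨hv, hex⟩)
        have heven : Even m := by
          by_contra hne
          exact hnot ⟨m, Int.not_even_iff_odd.mp hne, hm⟩
        obtain ⟨c, hc⟩ := heven
        refine ⟨c, ?_⟩
        have : y v * (2 * 2 ^ K) = m := by rw [← hpow]; exact hm
        have e2 : (m : ℝ) = c + c := by rw [hc]; push_cast; ring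
        linarith
    obtain ⟨L, hLB, hL⟩ := ih y' hy' (fun e => x e + h * ∑ v ∈ S, ε v * l v e)
    refine ⟨L, hLB, ?_⟩
    have e1 : (fun e => x e + ∑ v ∈ B, ((if v ∈ L then 1 else 0) - y v) * l v e)
        = (fun e => (x e + h * ∑ v ∈ S, ε v * l v e)
            + ∑ v ∈ B, ((if v ∈ L then 1 else 0) - y' v) * l v e) := by
      funext e
      have e2 : ∑ v ∈ B, ((if v ∈ L then 1 else 0) - y v) * l v e
          = ∑ v ∈ B, ((if v ∈ L then 1 else 0) - y' v) * l v e + ∑ v ∈ B, (y' v - y v) * l v e := by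
        rw [← Finset.sum_add_distrib]
        refine Finset.sum_congr rfl fun v _ => ?_
        ring
      have e3 : ∑ v ∈ B, (y' v - y v) * l v e = h * ∑ v ∈ S, ε v * l v e := by
        rw [Finset.mul_sum]
        have hsub : S ⊆ B := Finset.filter_subset _ _
        rw [← Finset.sum_subset hsub]
        · refine Finset.sum_congr rfl fun v hv => ?_
          simp only [y', hv, if_true]
          ring
        · intro v _ hv
          simp only [y', hv, if_false]
          ring
      rw [e2, e3]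
      ring
    rw [e1]
    refine hL.trans ?_
    have hexp : Real.exp (50 / 9 * t ^ 2 * ∑ k ∈ range (K + 1), (1 / 4 : ℝ) ^ (k + 1))
        = Real.exp (50 / 9 * t ^ 2 * h ^ 2) * Real.exp (50 / 9 * t ^ 2 * ∑ k ∈ range K, (1 / 4 : ℝ) ^ (k + 1)) := by
      rw [← Real.exp_add, Finset.sum_range_succ]
      congr 1
      have : h ^ 2 = (1 / 4 : ℝ) ^ (K + 1) := by
        rw [hh, ← pow_mul, mul_comm, pow_mul]; norm_num
      rw [this]
      ring
    rw [hexp, ← mul_assoc]
    exact mul_le_mul_of_nonneg_right hb (Real.exp_pos _).le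

lemma geom_quarter (K : ℕ) : ∑ k ∈ range K, (1 / 4 : ℝ) ^ (k + 1) ≤ 1 / 3 := by
  have : ∑ k ∈ range K, (1 / 4 : ℝ) ^ (k + 1) = (1 - (1 / 4 : ℝ) ^ K) / 3 := by
    induction K with
    | zero => simp
    | succ K ih =>
      rw [Finset.sum_range_succ, ih, pow_succ]
      ring
  rw [this]
  have : 0 < (1 / 4 : ℝ) ^ K := by positivity
  linarith

/-- Komlos type rounding with fractional start and no dependence on the number of columns. -/
theorem kr_fin (hD : 0 < D) (B : Finset ι) (l : ι → Fin D → ℝ) (hl : ∀ v, ∑ e, l v e ^ 2 ≤ 1)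
    (y : ι → ℝ) (hy : ∀ v ∈ B, 0 ≤ y v ∧ y v ≤ 1) :
    ∃ L ⊆ B, ∀ e, |∑ v ∈ B, ((if v ∈ L then 1 else 0) - y v) * l v e|
      ≤ 3 * √(Real.log (2 * D)) := by
  classical
  have hD1 : (1 : ℝ) ≤ D := by exact_mod_cast hD
  set Λ := Real.log (2 * D) with hΛ
  have hΛ0 : 1 / 2 ≤ Λ := by
    have h1 : Real.log 2 ≤ Λ := Real.log_le_log (by norm_num) (by linarith)
    have h2 := Real.log_two_gt_d9
    linarith
  have hsΛ : 0 < √Λ := Real.sqrt_pos.mpr (by linarith)
  -- choose the number of digits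
  obtain ⟨K, hK⟩ : ∃ K : ℕ, (B.card : ℝ) * (1 / 2 : ℝ) ^ K ≤ 1 / 10 := by
    obtain ⟨K, hK⟩ := exists_pow_lt_of_lt_one (show (0 : ℝ) < 1 / 10 / (B.card + 1) by positivity)
      (show (1 / 2 : ℝ) < 1 by norm_num)
    refine ⟨K, ?_⟩
    rw [lt_div_iff₀ (by positivity)] at hK
    have h0 : 0 < (1 / 2 : ℝ) ^ K := by positivity
    nlinarith
  let y' : ι → ℝ := fun v => (⌊y v * 2 ^ K⌋ : ℝ) / 2 ^ K
  have h2K : (0 : ℝ) < 2 ^ K := by positivity
  have hy' : ∀ v ∈ B, 0 ≤ y' v ∧ y' v ≤ 1 ∧ ∃ m : ℤ, y' v * 2 ^ K = m := by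
    intro v hv
    obtain ⟨h1, h2⟩ := hy v hv
    refine ⟨?_, ?_, ⌊y v * 2 ^ K⌋, ?_⟩
    · apply div_nonneg _ h2K.le
      have : (0 : ℤ) ≤ ⌊y v * 2 ^ K⌋ := Int.floor_nonneg.mpr (by positivity)
      exact_mod_cast this
    · rw [div_le_one h2K]
      have := Int.floor_le (y v * 2 ^ K)
      nlinarith
    · simp only [y']
      field_simp
  have hdiff : ∀ v ∈ B, |y v - y' v| ≤ (1 / 2 : ℝ) ^ K := by
    intro v _
    have h1 := Int.floor_le (y v * 2 ^ K)
    have h2 := Int.lt_floor_add_one (y v * 2 ^ K)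
    have e : y v - y' v = (y v * 2 ^ K - ⌊y v * 2 ^ K⌋) * (1 / 2 : ℝ) ^ K := by
      simp only [y']
      have : (1 / 2 : ℝ) ^ K = 1 / 2 ^ K := by rw [one_div_pow]
      rw [this]
      field_simp
    rw [e, abs_mul, abs_of_nonneg (by linarith : 0 ≤ y v * 2 ^ K - ⌊y v * 2 ^ K⌋),
      abs_of_pos (by positivity : (0 : ℝ) < (1 / 2) ^ K)]
    have : 0 < (1 / 2 : ℝ) ^ K := by positivity
    nlinarith
  set t : ℝ := √(Λ * (27 / 50)) with ht
  have ht0 : 0 < t := Real.sqrt_pos.mpr (by linarith)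
  have ht2 : t ^ 2 = Λ * (27 / 50) := Real.sq_sqrt (by linarith)
  obtain ⟨L, hLB, hL⟩ := digits B l hl t K y' hy' (fun _ => 0)
  refine ⟨L, hLB, fun e => ?_⟩
  have hP0 : Pot t (fun _ : Fin D => (0 : ℝ)) = 2 * D := by
    simp [Pot]
    ring
  rw [hP0] at hL
  set E : Fin D → ℝ := fun e => 0 + ∑ v ∈ B, ((if v ∈ L then 1 else 0) - y' v) * l v e with hE
  have hexp : Real.exp (t * |E e|) ≤ Pot t E := by
    unfold Pot
    have h0 : ∀ c ∈ (Finset.univ : Finset (Fin D)), 0 ≤ Real.exp (t * E c) + Real.exp (-(t * E c)) :=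
      fun c _ => add_nonneg (Real.exp_pos _).le (Real.exp_pos _).le
    refine le_trans ?_ (Finset.single_le_sum h0 (Finset.mem_univ e))
    rcases abs_cases (E e) with ⟨h1, _⟩ | ⟨h1, _⟩
    · rw [h1]
      linarith [Real.exp_pos (-(t * E e))]
    · rw [h1]
      have : t * -E e = -(t * E e) := by ring
      rw [this]
      linarith [Real.exp_pos (t * E e)]
  have hG := geom_quarter K
  have hupper : Real.exp (t * |E e|) ≤ Real.exp (Λ + Λ) := by
    refine hexp.trans (hL.trans ?_)
    have hexpΛ : Real.exp Λ = 2 * D := Real.exp_log (by linarith : (0 : ℝ) < 2 * D)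
    have hX : 50 / 9 * t ^ 2 * ∑ k ∈ range K, (1 / 4 : ℝ) ^ (k + 1) ≤ Λ := by
      rw [ht2]
      have hG' := mul_le_mul_of_nonneg_left hG (by nlinarith : 0 ≤ 50 / 9 * (Λ * (27 / 50)))
      nlinarith
    rw [Real.exp_add, hexpΛ]
    apply mul_le_mul_of_nonneg_left _ (by positivity)
    calc Real.exp _ ≤ Real.exp Λ := Real.exp_le_exp.mpr hX
      _ = 2 * D := hexpΛ
  have hE1 : t * |E e| ≤ 2 * Λ := by
    have := Real.exp_le_exp.mp hupper
    linarith
  have hE2 : |E e| ≤ 2.8 * √Λ := by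
    have hst : √Λ ^ 2 = Λ := Real.sq_sqrt (by linarith)
    have hts : (0.73 : ℝ) * √Λ ≤ t := by
      rw [ht]
      apply Real.le_sqrt_of_sq_le
      rw [mul_pow, hst]
      nlinarith
    have h3 : (0.73 : ℝ) * √Λ * |E e| ≤ 2 * Λ := by
      have := mul_le_mul_of_nonneg_right hts (abs_nonneg (E e))
      linarith
    have h4 : 0.73 * |E e| ≤ 2 * √Λ := by
      have h5 : √Λ * (0.73 * |E e|) ≤ √Λ * (2 * √Λ) := by nlinarith
      exact le_of_mul_le_mul_left h5 hsΛ
    nlinarith
  -- compare with the true start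
  have hlab : ∀ v, |l v e| ≤ 1 := by
    intro v
    have h1 : l v e ^ 2 ≤ ∑ c, l v c ^ 2 :=
      Finset.single_le_sum (f := fun c => l v c ^ 2) (fun _ _ => sq_nonneg _) (Finset.mem_univ e)
    have h2 := hl v
    exact abs_le_one_iff_mul_self_le_one.mpr (by nlinarith)
  have hsplit : ∑ v ∈ B, ((if v ∈ L then 1 else 0) - y v) * l v e
      = E e + ∑ v ∈ B, (y' v - y v) * l v e := by
    simp only [hE, zero_add]
    rw [← Finset.sum_add_distrib]
    refine Finset.sum_congr rfl fun v _ => ?_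
    ring
  have hsmall : |∑ v ∈ B, (y' v - y v) * l v e| ≤ 1 / 10 := by
    refine (Finset.abs_sum_le_sum_abs _ _).trans ?_
    calc ∑ v ∈ B, |(y' v - y v) * l v e| ≤ ∑ _v ∈ B, (1 / 2 : ℝ) ^ K := by
          refine Finset.sum_le_sum fun v hv => ?_
          rw [abs_mul, abs_sub_comm]
          have h0 := hdiff v hv
          have h1 := hlab v
          have h2 := abs_nonneg (y v - y' v)
          nlinarith
      _ = (B.card : ℝ) * (1 / 2 : ℝ) ^ K := by simp
      _ ≤ 1 / 10 := hK
  rw [hsplit]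
  have h5 : 0.7 ≤ √Λ := by
    apply Real.le_sqrt_of_sq_le
    norm_num
    linarith
  have h6 := abs_add_le (E e) (∑ v ∈ B, (y' v - y v) * l v e)
  nlinarith

end Vale.Agent.P262H
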