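import Vale.Agent.P262H.Arith

open Finset

namespace Vale.Agent.P262H

variable {d : ℕ} (P : Par d)

/-- Energy bound as a function of the age. -/
noncomputable def Par.gg (a : ℕ) : ℝ := 2 * P.γ * (3 / 5 : ℝ) ^ a

lemma Par.Gam_eq (i : Fin d) (ℓ : ℕ) : P.Gam i ℓ = P.gg (P.age i ℓ) := rfl

lemma Par.gg_pos (a : ℕ) : 0 < P.gg a := by
  have := P.γ_pos
  unfold Par.gg
  positivity

lemma Par.gg_succ (a : ℕ) : P.gg (a + 1) = 3 / 5 * P.gg a := by
  unfold Par.gg
  rw [pow_succ]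
  ring

lemma Par.gg_anti {a a' : ℕ} (h : a ≤ a') : P.gg a' ≤ P.gg a := by
  unfold Par.gg
  have := P.γ_pos
  apply mul_le_mul_of_nonneg_left _ (by positivity)
  exact pow_le_pow_of_le_one (by norm_num) (by norm_num) h

lemma sqrt_le_sevenNinths {x : ℝ} {j : ℕ} (h : x ≤ (3 / 5 : ℝ) ^ j) : √x ≤ (7 / 9 : ℝ) ^ j := by
  apply Real.sqrt_le_iff.mpr
  refine ⟨by positivity, h.trans ?_⟩
  rw [← pow_mul, mul_comm, pow_mul]
  apply pow_le_pow_left₀ (by norm_num)
  norm_num

/-- Bound for the total variation of the entries that become big at the step after age `a`. -/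
noncomputable def Par.TE (a : ℕ) : ℝ :=
  if 12 * P.σ ≤ P.gg (a + 1) then 0 else P.gg (a + 1) / √(P.theta (P.gg (a + 1)))

lemma mm_le_one (d : ℕ) (t : ℝ) : mm d t ≤ 1 := min_le_left _ _

/-- Scaled energy at age `a ≥ astar`. -/
lemma Par.beta_le {a : ℕ} (h : P.astar ≤ a) :
    P.gg a / (12 * P.σ) ≤ 1 / (2 * √(d : ℝ)) * (3 / 5 : ℝ) ^ (a - P.astar) := by
  have hσ := P.σ_pos
  have e : P.gg a / (12 * P.σ) = P.γ / (6 * P.σ) * (3 / 5 : ℝ) ^ P.astar * (3 / 5 : ℝ) ^ (a - P.astar) := by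
    unfold Par.gg
    have : (3 / 5 : ℝ) ^ a = (3 / 5 : ℝ) ^ P.astar * (3 / 5 : ℝ) ^ (a - P.astar) := by
      rw [← pow_add]; congr 1; omega
    rw [this]
    field_simp
    ring
  rw [e]
  exact mul_le_mul_of_nonneg_right P.hstar (by positivity)

/-- In the last phase the threshold is linear in the scaled energy. -/
lemma Par.theta_last {a : ℕ} (h : P.astar ≤ a) :
    P.gg a < 12 * P.σ ∧ P.theta (P.gg a) = P.gg a / (12 * P.σ) / (2 * √(d : ℝ)) := by
  have hσ := P.σ_pos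
  have hd := P.sqrtd_ge
  have hb := P.beta_le h
  set β := P.gg a / (12 * P.σ) with hβ
  have hβ0 : 0 < β := div_pos (P.gg_pos a) (by positivity)
  have hp : (3 / 5 : ℝ) ^ (a - P.astar) ≤ 1 := pow_le_one₀ (by norm_num) (by norm_num)
  have hb2 : β ≤ 1 / (2 * √(d : ℝ)) := by
    refine hb.trans ?_
    have : 0 < 1 / (2 * √(d : ℝ)) := by positivity
    nlinarith
  have hb3 : β < 1 := by
    refine lt_of_le_of_lt hb2 ?_
    rw [div_lt_one (by positivity)]
    linarith
  have hlt : P.gg a < 12 * P.σ := by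
    rwa [hβ, div_lt_one (by positivity)] at hb3
  refine ⟨hlt, ?_⟩
  rw [P.theta_of_lt hlt]
  have e2 : P.gg a / (2 * √(d : ℝ) * (12 * P.σ)) = β / (2 * √(d : ℝ)) := by
    rw [hβ]; field_simp
  rw [e2, ← hβ]
  apply max_eq_right
  have h3 : β * (2 * √(d : ℝ)) ≤ 1 := by
    rwa [le_div_iff₀ (by positivity)] at hb2
  rw [le_div_iff₀ (by positivity)]
  nlinarith

lemma Par.W_lt {a : ℕ} (h : a < P.astar) : P.W a = 25 * P.σ * ((P.astar : ℝ) - a) + 225 / 2 * P.σ := by
  unfold Par.W; simp [h]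

lemma Par.W_ge {a : ℕ} (h : P.astar ≤ a) : P.W a = 225 / 2 * P.σ * (7 / 9 : ℝ) ^ (a - P.astar) := by
  unfold Par.W; simp [not_lt.mpr h]

lemma Par.W_nonneg (a : ℕ) : 0 ≤ P.W a := by
  have hσ := P.σ_pos
  by_cases h : a < P.astar
  · rw [P.W_lt h]
    have : (a : ℝ) < P.astar := by exact_mod_cast h
    have : 0 < (P.astar : ℝ) - a := by linarith
    positivity
  · rw [P.W_ge (not_lt.mp h)]
    positivity

lemma Par.W_zero_le : P.W 0 ≤ 25 * P.σ * (P.astar : ℝ) + 225 / 2 * P.σ := by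
  have hσ := P.σ_pos
  by_cases h : 0 < P.astar
  · rw [P.W_lt h]
    simp
  · have h0 : P.astar = 0 := by omega
    rw [P.W_ge (by omega)]
    simp [h0]

/-- The Lyapunov function of the age pays for the noise and for the new big entries. -/
lemma Par.W_step (a : ℕ) :
    P.σ * mm d (P.theta (P.gg a)) + 2 * P.TE a ≤ P.W a - P.W (a + 1) := by
  have hσ := P.σ_pos
  have hd := P.sqrtd_ge
  have hd0 := P.d_pos
  by_cases h : a < P.astar
  · have h1 : P.σ * mm d (P.theta (P.gg a)) ≤ P.σ := by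
      have := mm_le_one d (P.theta (P.gg a))
      nlinarith
    have h2 : P.TE a ≤ 12 * P.σ := by
      unfold Par.TE
      split_ifs with h3
      · positivity
      · exact P.tv_le (P.gg_pos _) (not_le.mp h3)
    have h3 : P.W a - P.W (a + 1) = 25 * P.σ := by
      rw [P.W_lt h]
      by_cases h4 : a + 1 < P.astar
      · rw [P.W_lt h4]
        push_cast
        ring
      · have h5 : P.astar = a + 1 := by omega
        rw [P.W_ge (by omega)]
        rw [h5]
        simp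
    rw [h3]
    linarith
  · have ha := not_lt.mp h
    set j := a - P.astar with hj
    have hW : P.W a - P.W (a + 1) = 25 * P.σ * (7 / 9 : ℝ) ^ j := by
      rw [P.W_ge ha, P.W_ge (by omega : P.astar ≤ a + 1)]
      have : a + 1 - P.astar = j + 1 := by omega
      rw [this, pow_succ, ← hj]
      ring
    rw [hW]
    -- noise
    obtain ⟨hlt, hth⟩ := P.theta_last ha
    have hb := P.beta_le ha
    rw [← hj] at hb
    set β := P.gg a / (12 * P.σ) with hβ
    have hβ0 : 0 < β := div_pos (P.gg_pos a) (by positivity)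
    have hn : mm d (P.theta (P.gg a)) ≤ (7 / 9 : ℝ) ^ j := by
      refine (min_le_right _ _).trans ?_
      apply sqrt_le_sevenNinths
      rw [hth]
      have e : 2 * (d : ℝ) * (β / (2 * √(d : ℝ))) = √(d : ℝ) * β := by
        have : (d : ℝ) = √(d : ℝ) * √(d : ℝ) := (Real.mul_self_sqrt hd0.le).symm
        field_simp
        nlinarith
      rw [e]
      have h3 : √(d : ℝ) * (1 / (2 * √(d : ℝ))) = 1 / 2 := by
        field_simp
      have h4 := mul_le_mul_of_nonneg_left hb (by positivity : 0 ≤ √(d : ℝ))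
      rw [← mul_assoc, h3] at h4
      have h5 : 0 < (3 / 5 : ℝ) ^ j := by positivity
      linarith
    -- new big entries
    have ha1 : P.astar ≤ a + 1 := by omega
    obtain ⟨hlt1, hth1⟩ := P.theta_last ha1
    have hb1 := P.beta_le ha1
    have hj1 : a + 1 - P.astar = j + 1 := by omega
    rw [hj1] at hb1
    have hT : P.TE a ≤ 12 * P.σ * (7 / 9 : ℝ) ^ (j + 1) := by
      unfold Par.TE
      rw [if_neg (not_le.mpr hlt1)]
      set β1 := P.gg (a + 1) / (12 * P.σ) with hβ1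
      have hβ10 : 0 < β1 := div_pos (P.gg_pos _) (by positivity)
      have hg1 : P.gg (a + 1) = 12 * P.σ * β1 := by
        rw [hβ1]; field_simp
      rw [hth1, hg1, mul_div_assoc]
      apply mul_le_mul_of_nonneg_left _ (by positivity)
      have e1 : β1 / √(β1 / (2 * √(d : ℝ))) = √(β1 * (2 * √(d : ℝ))) := by
        have h2 : 0 < 2 * √(d : ℝ) := by positivity
        have h3 : β1 = √β1 * √β1 := (Real.mul_self_sqrt hβ10.le).symm
        rw [Real.sqrt_div hβ10.le, Real.sqrt_mul hβ10.le]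
        have h4 : 0 < √β1 := Real.sqrt_pos.mpr hβ10
        have h5 : 0 < √(2 * √(d : ℝ)) := Real.sqrt_pos.mpr h2
        field_simp
        nlinarith
      rw [e1]
      apply sqrt_le_sevenNinths
      have h3 := mul_le_mul_of_nonneg_right hb1 (by positivity : 0 ≤ 2 * √(d : ℝ))
      have h4 : 1 / (2 * √(d : ℝ)) * (3 / 5 : ℝ) ^ (j + 1) * (2 * √(d : ℝ)) = (3 / 5 : ℝ) ^ (j + 1) := by
        field_simp
      rw [h4] at h3
      exact h3
    have hp : 0 < (7 / 9 : ℝ) ^ j := by positivity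
    have e2 : (7 / 9 : ℝ) ^ (j + 1) = 7 / 9 * (7 / 9 : ℝ) ^ j := by
      rw [pow_succ]; ring
    rw [e2] at hT
    have hn2 := mul_le_mul_of_nonneg_left hn hσ.le
    nlinarith [mul_pos hσ hp]

/-! ### Lyapunov function of the level -/

lemma Par.sqrt_two_div : √(2 / P.γ) = √2 / √P.γ := by
  rw [Real.sqrt_div (by norm_num)]

lemma Par.om_nonneg (k : Fin d) (ℓ : ℕ) : 0 ≤ P.om k ℓ := by
  unfold Par.om
  have hγ := P.γ_pos
  split_ifs with h
  · have h1 : 1 / √(P.lam k ℓ) ≤ 1 / √P.γ := by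
      apply one_div_le_one_div_of_le (Real.sqrt_pos.mpr hγ)
      exact Real.sqrt_le_sqrt h
    have h2 : 1 / √P.γ ≤ √(2 / P.γ) := by
      rw [P.sqrt_two_div]
      apply div_le_div_of_nonneg_right _ (Real.sqrt_nonneg _)
      rw [Real.one_le_sqrt]; norm_num
    have : 0 ≤ √(2 / P.γ) - 1 / √(P.lam k ℓ) := by linarith
    positivity
  · exact le_rfl

lemma Par.om_le (k : Fin d) (ℓ : ℕ) : P.om k ℓ ≤ 5 / 2 * √(2 / P.γ) := by
  unfold Par.om
  split_ifs with h
  · have : 0 ≤ 1 / √(P.lam k ℓ) := by positivity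
    nlinarith
  · positivity

lemma Par.om_step (k : Fin d) (ℓ : ℕ) :
    (if P.γ ≤ P.lam k ℓ then 1 / √(P.lam k ℓ) else 0) ≤ P.om k ℓ - P.om k (ℓ + 1) := by
  have hγ := P.γ_pos
  have hl := P.lam_nonneg k ℓ
  have hs2a : (1.4 : ℝ) ≤ √2 := by
    apply Real.le_sqrt_of_sq_le; norm_num
  unfold Par.om
  by_cases h : P.γ ≤ P.lam k ℓ
  · have hlpos : 0 < P.lam k ℓ := by linarith
    have hs : 0 < √(P.lam k ℓ) := Real.sqrt_pos.mpr hlpos
    rw [if_pos h, if_pos h]
    by_cases h2 : P.γ ≤ P.lam k (ℓ + 1)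
    · rw [if_pos h2, P.lam_succ]
      have e : √(P.lam k ℓ / 2) = √(P.lam k ℓ) / √2 := Real.sqrt_div hl 2
      rw [e]
      have e2 : 1 / (√(P.lam k ℓ) / √2) = √2 * (1 / √(P.lam k ℓ)) := by
        field_simp
      rw [e2]
      have hp : 0 < 1 / √(P.lam k ℓ) := by positivity
      nlinarith
    · rw [if_neg h2]
      have h1 : 1 / √(P.lam k ℓ) ≤ 1 / √P.γ := by
        apply one_div_le_one_div_of_le (Real.sqrt_pos.mpr hγ)
        exact Real.sqrt_le_sqrt h
      rw [P.sqrt_two_div]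
      have e : √2 / √P.γ = √2 * (1 / √P.γ) := by ring
      rw [e]
      have hp : 0 < 1 / √P.γ := by
        have := Real.sqrt_pos.mpr hγ
        positivity
      nlinarith
  · have h2 : ¬ P.γ ≤ P.lam k (ℓ + 1) := by
      rw [P.lam_succ]
      push Not at h ⊢
      linarith
    rw [if_neg h, if_neg h, if_neg h2]
    simp

lemma Par.Om_nonneg (ℓ : ℕ) : 0 ≤ P.Om ℓ := by
  unfold Par.Om
  have := P.σ_pos
  exact mul_nonneg (by positivity) (Finset.sum_nonneg fun k _ => P.om_nonneg k ℓ)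

lemma Par.Om_le (ℓ : ℕ) : P.Om ℓ ≤ 17 * P.σ * ((d : ℝ) * (5 / 2 * √(2 / P.γ))) := by
  unfold Par.Om
  have := P.σ_pos
  apply mul_le_mul_of_nonneg_left _ (by positivity)
  calc ∑ k, P.om k ℓ ≤ ∑ _k : Fin d, 5 / 2 * √(2 / P.γ) :=
        Finset.sum_le_sum fun k _ => P.om_le k ℓ
    _ = _ := by simp

lemma Par.Om_step (ℓ : ℕ) : 17 * P.σ * P.rho ℓ ≤ P.Om ℓ - P.Om (ℓ + 1) := by
  unfold Par.Om Par.rho
  have := P.σ_pos
  rw [← mul_sub, ← Finset.sum_sub_distrib]
  apply mul_le_mul_of_nonneg_left _ (by positivity)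
  exact Finset.sum_le_sum fun k _ => P.om_step k ℓ

lemma Par.rho_nonneg (ℓ : ℕ) : 0 ≤ P.rho ℓ := by
  unfold Par.rho
  refine Finset.sum_nonneg fun k _ => ?_
  split_ifs <;> positivity

/-- Freezing bound: newly frozen coordinates satisfy the last invariant. -/
lemma Par.freeze_le (ℓ : ℕ) : P.σ + P.W 0 + P.Om ℓ ≤ P.b := by
  have h1 := P.W_zero_le
  have h2 := P.Om_le ℓ
  have h3 := P.hb
  linarith

lemma Par.σ_le_b : P.σ ≤ P.b := by
  have h := P.freeze_le 0
  have h1 := P.W_nonneg 0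
  have h2 := P.Om_nonneg 0
  linarith

lemma Par.b_sq_le : P.b ^ 2 ≤ P.γ := by
  have h := P.hbγ
  have h0 : 0 ≤ P.b := by linarith [P.σ_le_b, P.σ_pos]
  calc P.b ^ 2 ≤ √P.γ ^ 2 := pow_le_pow_left₀ h0 h 2
    _ = P.γ := Real.sq_sqrt P.γ_pos.le

end Vale.Agent.P262H
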