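import Vale.Agent.P262H.Solve

open Finset

namespace Vale.Agent.P262H

variable {d : ℕ} (P : Par d) {ι : Type*} [DecidableEq ι] (α : ι → Fin d → ℝ)

/-- Rounding error of a vector. -/
noncomputable def ee (a : Fin d → ℝ) (L : Finset ι) (v : ι) : ℝ :=
  (if v ∈ L then 1 else 0) - (1 / 2 + sh α a v)

/-- The data of a split at a node. -/
structure Par.Split (ℓ : ℕ) (B : Finset ι) (x a : Fin d → ℝ) (L : Finset ι) : Prop where
  hLB : L ⊆ B
  ha0 : ∀ k, P.lam k ℓ < P.γ → a k = 0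
  hsol : ∀ i, P.γ ≤ P.lam i ℓ → ∑ k, a k * MM α B k i = x i
  ha2 : ∑ k, P.lam k ℓ * a k ^ 2 ≤ 4 * P.σ ^ 2 * P.RR ℓ
  ha3 : ∑ v ∈ B, sh α a v ^ 2 ≤ 2 * P.σ ^ 2 * P.RR ℓ
  N1 : ∀ i, |∑ v ∈ B, ee α a L v * (if α v i ^ 2 ≤ P.th i ℓ then α v i else 0)| ≤ P.σ * mm d (P.th i ℓ)
  N2 : ∀ i, |∑ v ∈ B, ee α a L v * (if α v i ^ 2 ≤ P.th i ℓ then α v i ^ 2 else 0)| ≤ P.σ * nn d (P.th i ℓ)
  N3 : ∀ i j, |∑ v ∈ B, ee α a L v * (α v i * α v j)| ≤ P.tau i ℓ * P.tau j ℓ / 2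
  N4 : |∑ v ∈ B, ee α a L v| ≤ P.σ

variable {P α}

variable {ℓ : ℕ} {B : Finset ι} {x a : Fin d → ℝ} {L : Finset ι}

/-- The sum over the left child. -/
lemma sum_left (hLB : L ⊆ B) (f : ι → ℝ) :
    ∑ v ∈ L, f v = 1 / 2 * ∑ v ∈ B, f v + (∑ v ∈ B, sh α a v * f v + ∑ v ∈ B, ee α a L v * f v) := by
  rw [Finset.mul_sum, ← Finset.sum_add_distrib, ← Finset.sum_add_distrib]
  have : ∑ v ∈ L, f v = ∑ v ∈ B, (if v ∈ L then 1 else 0) * f v := by
    rw [← Finset.sum_subset hLB]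
    · refine Finset.sum_congr rfl fun v hv => ?_
      simp [hv]
    · intro v _ hv
      simp [hv]
  rw [this]
  refine Finset.sum_congr rfl fun v _ => ?_
  unfold ee
  ring

/-- The sum over the right child. -/
lemma sum_right (hLB : L ⊆ B) (f : ι → ℝ) :
    ∑ v ∈ B \ L, f v = 1 / 2 * ∑ v ∈ B, f v - (∑ v ∈ B, sh α a v * f v + ∑ v ∈ B, ee α a L v * f v) := by
  have h1 := Finset.sum_sdiff (f := f) hLB
  have h2 := sum_left (α := α) (a := a) hLB f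
  linarith

lemma Par.γ_big' (P : Par d) : 8 * 2 * P.σ ^ 2 * d ≤ P.γ := by
  have h1 := P.γ_ge
  have hd := P.d_ge
  have hσ := P.hσ
  have : (d : ℝ) ≤ (d : ℝ) ^ 2 := by nlinarith
  have h2 : 0 < P.σ ^ 2 := by positivity
  nlinarith [mul_le_mul_of_nonneg_right this h2.le]

lemma Par.RR_small (P : Par d) (ℓ : ℕ) : 2 * P.σ ^ 2 * P.RR ℓ ≤ 1 / 8 := by
  have h1 := P.RR_le_d ℓ
  have h2 := P.γ_big'
  have hγ := P.γ_pos
  have hσ := P.σ_pos
  have h3 : 2 * P.σ ^ 2 * P.RR ℓ ≤ 2 * P.σ ^ 2 * (d / P.γ) :=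
    mul_le_mul_of_nonneg_left h1 (by positivity)
  refine h3.trans ?_
  have e : 2 * P.σ ^ 2 * (d / P.γ) = (2 * P.σ ^ 2 * d) / P.γ := by ring
  rw [e, div_le_iff₀ hγ]
  linarith

/-- The two-term deviation for the product of two coordinates. -/
lemma Par.Split.dev_prod (hS : P.Split α ℓ B x a L)
    (hE : ∀ i j, |MM α B i j - (if i = j then P.lam i ℓ else 0)| ≤ 5 * (P.tau i ℓ * P.tau j ℓ))
    (hα : ∀ v, ∑ i, α v i ^ 2 ≤ 1) (i j : Fin d) :
    |∑ v ∈ B, sh α a v * (α v i * α v j) + ∑ v ∈ B, ee α a L v * (α v i * α v j)|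
      ≤ P.tau i ℓ * P.tau j ℓ := by
  have hτ : 0 < P.tau i ℓ * P.tau j ℓ := mul_pos (P.tau_pos _ _) (P.tau_pos _ _)
  have hunit : ∀ v k, α v k ^ 2 ≤ 1 := by
    intro v k
    have h1 : α v k ^ 2 ≤ ∑ c, α v c ^ 2 :=
      Finset.single_le_sum (f := fun c => α v c ^ 2) (fun _ _ => sq_nonneg _) (Finset.mem_univ k)
    exact h1.trans (hα v)
  have hdi : ∀ k, MM α B k k ≤ 2 * P.tau k ℓ ^ 4 := by
    intro k
    have := hE k k
    rw [if_pos rfl] at this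
    exact P.diag_le this
  -- the mixed fourth moment
  set X := ∑ v ∈ B, (α v i * α v j) ^ 2 with hX
  have hX0 : 0 ≤ X := Finset.sum_nonneg fun _ _ => sq_nonneg _
  have hXi : X ≤ MM α B i i := by
    refine Finset.sum_le_sum fun v _ => ?_
    have := hunit v j
    nlinarith [sq_nonneg (α v i)]
  have hXj : X ≤ MM α B j j := by
    refine Finset.sum_le_sum fun v _ => ?_
    have := hunit v i
    nlinarith [sq_nonneg (α v j)]
  have hX2 : X ≤ 2 * (P.tau i ℓ * P.tau j ℓ) ^ 2 := by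
    refine (pow_le_pow_iff_left₀ hX0 (by positivity) two_ne_zero).mp ?_
    have h1 := hXi.trans (hdi i)
    have h2 := hXj.trans (hdi j)
    have h3 := mul_le_mul h1 h2 hX0 (by positivity)
    nlinarith
  have hCS : (∑ v ∈ B, sh α a v * (α v i * α v j)) ^ 2 ≤ (∑ v ∈ B, sh α a v ^ 2) * X :=
    Finset.sum_mul_sq_le_sq_mul_sq _ _ _
  have hsh : ∑ v ∈ B, sh α a v ^ 2 ≤ 1 / 8 := hS.ha3.trans (P.RR_small ℓ)
  have h1 : (∑ v ∈ B, sh α a v * (α v i * α v j)) ^ 2 ≤ (P.tau i ℓ * P.tau j ℓ / 2) ^ 2 := by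
    have h2 := mul_le_mul hsh hX2 hX0 (by norm_num)
    have e : (P.tau i ℓ * P.tau j ℓ / 2) ^ 2 = 1 / 8 * (2 * (P.tau i ℓ * P.tau j ℓ) ^ 2) := by ring
    rw [e]
    exact hCS.trans h2
  have h2 : |∑ v ∈ B, sh α a v * (α v i * α v j)| ≤ P.tau i ℓ * P.tau j ℓ / 2 :=
    abs_le_of_sq_le_sq' h1 (by positivity) |> abs_le.mpr
  have h3 := hS.N3 i j
  calc _ ≤ |∑ v ∈ B, sh α a v * (α v i * α v j)| + |∑ v ∈ B, ee α a L v * (α v i * α v j)| := abs_add_le _ _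
    _ ≤ _ := by linarith

/-- Near-diagonal invariant for the left child. -/
lemma Par.Split.hE_left (hS : P.Split α ℓ B x a L)
    (hE : ∀ i j, |MM α B i j - (if i = j then P.lam i ℓ else 0)| ≤ 5 * (P.tau i ℓ * P.tau j ℓ))
    (hα : ∀ v, ∑ i, α v i ^ 2 ≤ 1) (i j : Fin d) :
    |MM α L i j - (if i = j then P.lam i (ℓ + 1) else 0)| ≤ 5 * (P.tau i (ℓ + 1) * P.tau j (ℓ + 1)) := by
  have h1 := hS.dev_prod hE hα i j
  have h2 := hE i j
  have h3 := P.tau_step i j ℓ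
  have e : MM α L i j - (if i = j then P.lam i (ℓ + 1) else 0)
      = 1 / 2 * (MM α B i j - (if i = j then P.lam i ℓ else 0))
        + (∑ v ∈ B, sh α a v * (α v i * α v j) + ∑ v ∈ B, ee α a L v * (α v i * α v j)) := by
    unfold MM
    rw [sum_left (α := α) (a := a) hS.hLB (fun v => α v i * α v j), P.lam_succ]
    split_ifs <;> ring
  rw [e]
  calc _ ≤ |1 / 2 * (MM α B i j - (if i = j then P.lam i ℓ else 0))|
        + |∑ v ∈ B, sh α a v * (α v i * α v j) + ∑ v ∈ B, ee α a L v * (α v i * α v j)| := abs_add_le _ _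
    _ ≤ 1 / 2 * (5 * (P.tau i ℓ * P.tau j ℓ)) + P.tau i ℓ * P.tau j ℓ := by
        rw [abs_mul, abs_of_pos (by norm_num : (0 : ℝ) < 1 / 2)]
        linarith
    _ ≤ _ := by linarith

/-- Near-diagonal invariant for the right child. -/
lemma Par.Split.hE_right (hS : P.Split α ℓ B x a L)
    (hE : ∀ i j, |MM α B i j - (if i = j then P.lam i ℓ else 0)| ≤ 5 * (P.tau i ℓ * P.tau j ℓ))
    (hα : ∀ v, ∑ i, α v i ^ 2 ≤ 1) (i j : Fin d) :
    |MM α (B \ L) i j - (if i = j then P.lam i (ℓ + 1) else 0)| ≤ 5 * (P.tau i (ℓ + 1) * P.tau j (ℓ + 1)) := by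
  have h1 := hS.dev_prod hE hα i j
  have h2 := hE i j
  have h3 := P.tau_step i j ℓ
  have e : MM α (B \ L) i j - (if i = j then P.lam i (ℓ + 1) else 0)
      = 1 / 2 * (MM α B i j - (if i = j then P.lam i ℓ else 0))
        - (∑ v ∈ B, sh α a v * (α v i * α v j) + ∑ v ∈ B, ee α a L v * (α v i * α v j)) := by
    unfold MM
    rw [sum_right (α := α) (a := a) hS.hLB (fun v => α v i * α v j), P.lam_succ]
    split_ifs <;> ring
  rw [e]
  calc _ ≤ |1 / 2 * (MM α B i j - (if i = j then P.lam i ℓ else 0))|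
        + |∑ v ∈ B, sh α a v * (α v i * α v j) + ∑ v ∈ B, ee α a L v * (α v i * α v j)| := abs_sub _ _
    _ ≤ 1 / 2 * (5 * (P.tau i ℓ * P.tau j ℓ)) + P.tau i ℓ * P.tau j ℓ := by
        rw [abs_mul, abs_of_pos (by norm_num : (0 : ℝ) < 1 / 2)]
        linarith
    _ ≤ _ := by linarith

end Vale.Agent.P262H
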