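import Vale.Agent.P262H.Node1

open Finset

namespace Vale.Agent.P262H

variable {d : ℕ} {P : Par d} {ι : Type*} [DecidableEq ι] {α : ι → Fin d → ℝ}
variable {ℓ : ℕ} {B : Finset ι} {x a : Fin d → ℝ} {L : Finset ι}

lemma Par.lam_succ_le (P : Par d) (i : Fin d) (ℓ : ℕ) : P.lam i (ℓ + 1) ≤ P.lam i ℓ := by
  rw [P.lam_succ]
  linarith [P.lam_nonneg i ℓ]

lemma Par.age_succ_corr (P : Par d) {i : Fin d} {ℓ : ℕ} (h : P.γ ≤ P.lam i ℓ) : P.age i (ℓ + 1) = 0 := by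
  simp [Par.age, h]

lemma Par.age_succ_froz (P : Par d) {i : Fin d} {ℓ : ℕ} (h : P.lam i ℓ < P.γ) :
    P.age i (ℓ + 1) = P.age i ℓ + 1 := by
  simp [Par.age, not_le.mpr h]

lemma Par.age_corr (P : Par d) {i : Fin d} {ℓ : ℕ} (h : P.γ ≤ P.lam i ℓ) : P.age i ℓ = 0 := by
  cases ℓ with
  | zero => rfl
  | succ m => exact P.age_succ_corr (h.trans (P.lam_succ_le i m))

lemma Par.σ_le_γ (P : Par d) : 12 * P.σ ≤ 2 * P.γ := by
  have h1 := P.γ_ge_σ
  have h2 := P.hσ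
  nlinarith

lemma Par.th_of_age_zero (P : Par d) {i : Fin d} {ℓ : ℕ} (h : P.age i ℓ = 0) : P.th i ℓ = 1 := by
  unfold Par.th Par.Gam
  rw [h, pow_zero, mul_one]
  exact P.theta_of_ge P.σ_le_γ

lemma Par.unit_sq (hα : ∀ v, ∑ i, α v i ^ 2 ≤ 1) (v : ι) (k : Fin d) : α v k ^ 2 ≤ 1 := by
  have h1 : α v k ^ 2 ≤ ∑ c, α v c ^ 2 :=
    Finset.single_le_sum (f := fun c => α v c ^ 2) (fun _ _ => sq_nonneg _) (Finset.mem_univ k)
  exact h1.trans (hα v)

lemma Par.unit_abs (hα : ∀ v, ∑ i, α v i ^ 2 ≤ 1) (v : ι) (k : Fin d) : |α v k| ≤ 1 := by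
  have := Par.unit_sq hα v k
  exact abs_le_one_iff_mul_self_le_one.mpr (by nlinarith)

/-- The shift is tiny. -/
lemma Par.Split.l1_small (hS : P.Split α ℓ B x a L) : ∑ k, |a k| ≤ 2 * P.σ * (d / P.γ) := by
  have h1 := P.a_l1 ℓ a hS.ha0 hS.ha2
  have h2 := P.RR_le_d ℓ
  have hσ := P.σ_pos
  have := mul_le_mul_of_nonneg_left h2 (by positivity : 0 ≤ 2 * P.σ)
  linarith

lemma Par.eta_small (P : Par d) : 2 * P.σ * (d / P.γ) ≤ 1 / 100 := by
  have h1 := P.γ_ge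
  have hd := P.d_ge
  have hσ := P.hσ
  have hγ := P.γ_pos
  have e : 2 * P.σ * (d / P.γ) = (2 * P.σ * d) / P.γ := by ring
  rw [e, div_le_iff₀ hγ]
  have h2 : (d : ℝ) * P.σ ≤ (d : ℝ) ^ 2 * P.σ ^ 2 := by
    have : 1 ≤ (d : ℝ) * P.σ := by nlinarith
    nlinarith
  nlinarith

lemma Par.Split.sh_small (hS : P.Split α ℓ B x a L) (hα : ∀ v, ∑ i, α v i ^ 2 ≤ 1) (v : ι) :
    |sh α a v| ≤ 1 / 100 :=
  (sh_abs_le α hα a v).trans (hS.l1_small.trans P.eta_small)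

/-- Sum of the shift against a coordinate. -/
lemma sh_sum_coord (a : Fin d → ℝ) (i : Fin d) :
    ∑ v ∈ B, sh α a v * α v i = ∑ k, a k * MM α B k i := by
  unfold sh MM
  simp only [Finset.sum_mul, Finset.mul_sum]
  rw [Finset.sum_comm]
  refine Finset.sum_congr rfl fun k _ => Finset.sum_congr rfl fun v _ => ?_
  ring

/-- The corrected coordinates: the noise coordinate has size at most `σ`. -/
lemma Par.Split.noise_corr (hS : P.Split α ℓ B x a L) (hα : ∀ v, ∑ i, α v i ^ 2 ≤ 1) {i : Fin d}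
    (hi : P.age i ℓ = 0) : |∑ v ∈ B, ee α a L v * α v i| ≤ P.σ := by
  have h1 := hS.N1 i
  rw [P.th_of_age_zero hi] at h1
  have h2 : ∀ v, (if α v i ^ 2 ≤ (1 : ℝ) then α v i else 0) = α v i := fun v =>
    if_pos (Par.unit_sq hα v i)
  simp only [h2] at h1
  refine h1.trans ?_
  have := mm_le_one d 1
  have hσ := P.σ_pos
  nlinarith

/-- Position of the middle point in a corrected coordinate. -/
lemma Par.Split.mid_corr (hS : P.Split α ℓ B x a L) (hα : ∀ v, ∑ i, α v i ^ 2 ≤ 1) {i : Fin d}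
    (hi : P.γ ≤ P.lam i ℓ) {p q : Fin d → ℝ} (hq : q i - p i = ∑ v ∈ B, α v i)
    (hx : x i = -(p i + q i) / 2) : |p i + ∑ v ∈ L, α v i| ≤ P.σ := by
  rw [sum_left (α := α) (a := a) hS.hLB (fun v => α v i), sh_sum_coord, hS.hsol i hi, hx, ← hq]
  have e : p i + (1 / 2 * (q i - p i) + (-(p i + q i) / 2 + ∑ v ∈ B, ee α a L v * α v i))
      = ∑ v ∈ B, ee α a L v * α v i := by ring
  rw [e]
  exact hS.noise_corr hα (P.age_corr hi)

/-- Energy of the small entries in the children, with the threshold of the parent. -/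
lemma Par.Split.energy_left (hS : P.Split α ℓ B x a L) (hα : ∀ v, ∑ i, α v i ^ 2 ≤ 1) {i : Fin d}
    (hE : P.Sm α i ℓ B ≤ P.Gam i ℓ) : P.Sm α i ℓ L ≤ 3 / 5 * P.Gam i ℓ := by
  have hG : 0 < P.Gam i ℓ := by rw [P.Gam_eq]; exact P.gg_pos _
  unfold Par.Sm at hE ⊢
  rw [Finset.sum_filter] at hE ⊢
  rw [sum_left (α := α) (a := a) hS.hLB]
  set f : ι → ℝ := fun v => if α v i ^ 2 ≤ P.th i ℓ then α v i ^ 2 else 0 with hf
  have hf0 : ∀ v, 0 ≤ f v := by
    intro v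
    simp only [hf]
    split_ifs
    · exact sq_nonneg _
    · exact le_rfl
  have h1 : |∑ v ∈ B, sh α a v * f v| ≤ 1 / 100 * ∑ v ∈ B, f v := by
    refine (Finset.abs_sum_le_sum_abs _ _).trans ?_
    rw [Finset.mul_sum]
    refine Finset.sum_le_sum fun v _ => ?_
    rw [abs_mul, abs_of_nonneg (hf0 v)]
    exact mul_le_mul_of_nonneg_right (hS.sh_small hα v) (hf0 v)
  have h2 : |∑ v ∈ B, ee α a L v * f v| ≤ P.Gam i ℓ / 12 :=
    (hS.N2 i).trans (P.nn_theta hG)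
  have h3 := (abs_le.mp h1).2
  have h4 := (abs_le.mp h2).2
  have h5 : 0 ≤ ∑ v ∈ B, f v := Finset.sum_nonneg fun v _ => hf0 v
  linarith

lemma Par.Split.energy_right (hS : P.Split α ℓ B x a L) (hα : ∀ v, ∑ i, α v i ^ 2 ≤ 1) {i : Fin d}
    (hE : P.Sm α i ℓ B ≤ P.Gam i ℓ) : P.Sm α i ℓ (B \ L) ≤ 3 / 5 * P.Gam i ℓ := by
  have hG : 0 < P.Gam i ℓ := by rw [P.Gam_eq]; exact P.gg_pos _
  unfold Par.Sm at hE ⊢
  rw [Finset.sum_filter] at hE ⊢
  rw [sum_right (α := α) (a := a) hS.hLB]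
  set f : ι → ℝ := fun v => if α v i ^ 2 ≤ P.th i ℓ then α v i ^ 2 else 0 with hf
  have hf0 : ∀ v, 0 ≤ f v := by
    intro v
    simp only [hf]
    split_ifs
    · exact sq_nonneg _
    · exact le_rfl
  have h1 : |∑ v ∈ B, sh α a v * f v| ≤ 1 / 100 * ∑ v ∈ B, f v := by
    refine (Finset.abs_sum_le_sum_abs _ _).trans ?_
    rw [Finset.mul_sum]
    refine Finset.sum_le_sum fun v _ => ?_
    rw [abs_mul, abs_of_nonneg (hf0 v)]
    exact mul_le_mul_of_nonneg_right (hS.sh_small hα v) (hf0 v)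
  have h2 : |∑ v ∈ B, ee α a L v * f v| ≤ P.Gam i ℓ / 12 :=
    (hS.N2 i).trans (P.nn_theta hG)
  have h3 := (abs_le.mp h1).1
  have h4 := (abs_le.mp h2).1
  have h5 : 0 ≤ ∑ v ∈ B, f v := Finset.sum_nonneg fun v _ => hf0 v
  linarith

/-- Thresholds decrease along a frozen coordinate. -/
lemma Par.th_step (P : Par d) {i : Fin d} {ℓ : ℕ} (h : P.lam i ℓ < P.γ) : P.th i (ℓ + 1) ≤ P.th i ℓ := by
  unfold Par.th
  rw [P.Gam_eq, P.Gam_eq, P.age_succ_froz h]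
  exact P.theta_mono (P.gg_pos _) (P.gg_anti (Nat.le_succ _))

/-- New energy bound along a frozen coordinate. -/
lemma Par.Gam_step (P : Par d) {i : Fin d} {ℓ : ℕ} (h : P.lam i ℓ < P.γ) :
    P.Gam i (ℓ + 1) = 3 / 5 * P.Gam i ℓ := by
  rw [P.Gam_eq, P.Gam_eq, P.age_succ_froz h, P.gg_succ]

/-- Lowering the threshold lowers the energy of the small entries. -/
lemma Sm_mono (P : Par d) (i : Fin d) {ℓ ℓ' : ℕ} (C : Finset ι) (h : P.th i ℓ' ≤ P.th i ℓ) :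
    P.Sm α i ℓ' C ≤ P.Sm α i ℓ C := by
  unfold Par.Sm
  apply Finset.sum_le_sum_of_subset_of_nonneg
  · intro v hv
    simp only [Finset.mem_filter] at hv ⊢
    exact ⟨hv.1, hv.2.trans h⟩
  · intro _ _ _
    exact sq_nonneg _

/-- The total variation of the entries that become big. -/
lemma Par.TE_bound (P : Par d) {i : Fin d} {ℓ : ℕ} (hi : P.lam i ℓ < P.γ) (C : Finset ι)
    (hC : P.Sm α i ℓ C ≤ 3 / 5 * P.Gam i ℓ) :
    ∑ v ∈ C with (α v i ^ 2 ≤ P.th i ℓ ∧ ¬ α v i ^ 2 ≤ P.th i (ℓ + 1)), |α v i| ≤ P.TE (P.age i ℓ) := by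
  have hage := P.age_succ_froz hi
  set A := P.age i ℓ with hA
  have ht : P.th i ℓ = P.theta (P.gg A) := rfl
  have ht' : P.th i (ℓ + 1) = P.theta (P.gg (A + 1)) := by
    unfold Par.th
    rw [P.Gam_eq, hage]
  unfold Par.TE
  split_ifs with hcase
  · -- thresholds agree, no entry moves
    have h1 : P.th i (ℓ + 1) = 1 := by rw [ht']; exact P.theta_of_ge hcase
    have h2 : P.th i ℓ ≤ 1 := P.th_le_one i ℓ
    apply le_of_eq
    apply Finset.sum_eq_zero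
    intro v hv
    simp only [Finset.mem_filter] at hv
    exfalso
    apply hv.2.2
    rw [h1]
    exact hv.2.1.trans h2
  · push Not at hcase
    have hg1 := P.gg_pos (A + 1)
    have hθ := P.theta_pos hg1
    have hsθ := Real.sqrt_pos.mpr hθ
    rw [ht']
    have h3 : ∀ v ∈ C.filter (fun v => α v i ^ 2 ≤ P.th i ℓ ∧ ¬ α v i ^ 2 ≤ P.theta (P.gg (A + 1))),
        |α v i| ≤ α v i ^ 2 / √(P.theta (P.gg (A + 1))) := by
      intro v hv
      simp only [Finset.mem_filter] at hv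
      have h4 := not_le.mp hv.2.2
      have h5 : √(P.theta (P.gg (A + 1))) ≤ |α v i| := by
        rw [← Real.sqrt_sq_eq_abs]
        exact Real.sqrt_le_sqrt h4.le
      rw [le_div_iff₀ hsθ, ← sq_abs (α v i)]
      nlinarith [abs_nonneg (α v i)]
    rw [ht'] at *
    calc ∑ v ∈ C with (α v i ^ 2 ≤ P.th i ℓ ∧ ¬ α v i ^ 2 ≤ P.theta (P.gg (A + 1))), |α v i|
        ≤ ∑ v ∈ C with (α v i ^ 2 ≤ P.th i ℓ ∧ ¬ α v i ^ 2 ≤ P.theta (P.gg (A + 1))),
            α v i ^ 2 / √(P.theta (P.gg (A + 1))) := Finset.sum_le_sum h3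
      _ ≤ (∑ v ∈ C with α v i ^ 2 ≤ P.th i ℓ, α v i ^ 2) / √(P.theta (P.gg (A + 1))) := by
          rw [Finset.sum_div]
          apply Finset.sum_le_sum_of_subset_of_nonneg
          · intro v hv
            simp only [Finset.mem_filter] at hv ⊢
            exact ⟨hv.1, hv.2.1⟩
          · intro _ _ _
            positivity
      _ ≤ P.gg (A + 1) / √(P.theta (P.gg (A + 1))) := by
          apply div_le_div_of_nonneg_right _ hsθ.le
          rw [P.gg_succ]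
          exact hC

end Vale.Agent.P262H
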