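import Vale.Agent.P262H.Node2

open Finset

namespace Vale.Agent.P262H

variable {d : ℕ} {P : Par d} {ι : Type*} [DecidableEq ι] {α : ι → Fin d → ℝ}
variable {ℓ : ℕ} {B : Finset ι} {x a : Fin d → ℝ} {L : Finset ι}

lemma psi_left {p q z Gl Gr Tl Tr El Tel δ : ℝ} (hTr : 0 ≤ Tr) (hE : |El| ≤ Tel)
    (hz : z - Gl = (p + (q - (Gl + Gr))) / 2 + δ) :
    max |p| |z - (Gl + El)| + (Tl + Tel) ≤ max |p| |q - (Gl + Gr)| + (Tl + Tr) + |δ| + 2 * Tel := by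
  set m := max |p| |q - (Gl + Gr)| with hm
  have h1 : |p| ≤ m := le_max_left _ _
  have h2 : |q - (Gl + Gr)| ≤ m := le_max_right _ _
  have h3 : |z - Gl| ≤ m + |δ| := by
    rw [hz]
    have h4 : |(p + (q - (Gl + Gr))) / 2| ≤ m := by
      rw [abs_div, abs_of_pos (by norm_num : (0 : ℝ) < 2), div_le_iff₀ (by norm_num)]
      have := abs_add_le p (q - (Gl + Gr))
      linarith
    have := abs_add_le ((p + (q - (Gl + Gr))) / 2) δ
    linarith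
  have h5 : |z - (Gl + El)| ≤ |z - Gl| + |El| := by
    have e : z - (Gl + El) = (z - Gl) - El := by ring
    rw [e]
    exact abs_sub _ _
  have h6 : 0 ≤ |δ| := abs_nonneg _
  have h7 : 0 ≤ Tel := (abs_nonneg _).trans hE
  have h8 : max |p| |z - (Gl + El)| ≤ m + |δ| + Tel := by
    apply max_le <;> linarith
  linarith

lemma psi_right {p q z Gl Gr Tl Tr Er Ter δ : ℝ} (hGl : |Gl| ≤ Tl) (hE : |Er| ≤ Ter)
    (hz : z - Gl = (p + (q - (Gl + Gr))) / 2 + δ) :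
    max |z| |q - (Gr + Er)| + (Tr + Ter) ≤ max |p| |q - (Gl + Gr)| + (Tl + Tr) + |δ| + 2 * Ter := by
  set m := max |p| |q - (Gl + Gr)| with hm
  have h1 : |p| ≤ m := le_max_left _ _
  have h2 : |q - (Gl + Gr)| ≤ m := le_max_right _ _
  have h3 : |z - Gl| ≤ m + |δ| := by
    rw [hz]
    have h4 : |(p + (q - (Gl + Gr))) / 2| ≤ m := by
      rw [abs_div, abs_of_pos (by norm_num : (0 : ℝ) < 2), div_le_iff₀ (by norm_num)]
      have := abs_add_le p (q - (Gl + Gr))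
      linarith
    have := abs_add_le ((p + (q - (Gl + Gr))) / 2) δ
    linarith
  have h6 : 0 ≤ |δ| := abs_nonneg _
  have h7 : 0 ≤ Ter := (abs_nonneg _).trans hE
  have h8 : |z| ≤ m + |δ| + Tl := by
    have e : z = (z - Gl) + Gl := by ring
    have := abs_add_le (z - Gl) Gl
    rw [← e] at this
    linarith
  have h9 : |q - (Gr + Er)| ≤ m + Tl + Ter := by
    have e : q - (Gr + Er) = (q - (Gl + Gr)) + Gl - Er := by ring
    rw [e]
    have h10 := abs_sub ((q - (Gl + Gr)) + Gl) Er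
    have h11 := abs_add_le (q - (Gl + Gr)) Gl
    linarith
  have h12 : max |z| |q - (Gr + Er)| ≤ m + |δ| + Tl + Ter := by
    apply max_le <;> linarith
  linarith

omit [DecidableEq ι] in
lemma Tb_nonneg (P : Par d) (i : Fin d) (ℓ : ℕ) (C : Finset ι) : 0 ≤ P.Tb α i ℓ C :=
  Finset.sum_nonneg fun _ _ => abs_nonneg _

omit [DecidableEq ι] in
lemma Gb_abs_le (P : Par d) (i : Fin d) (ℓ : ℕ) (C : Finset ι) : |P.Gb α i ℓ C| ≤ P.Tb α i ℓ C :=
  Finset.abs_sum_le_sum_abs _ _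

lemma Gb_add (P : Par d) (i : Fin d) (ℓ : ℕ) (hLB : L ⊆ B) :
    P.Gb α i ℓ B = P.Gb α i ℓ L + P.Gb α i ℓ (B \ L) := by
  unfold Par.Gb
  rw [Finset.sum_filter, Finset.sum_filter, Finset.sum_filter, add_comm]
  exact (Finset.sum_sdiff hLB).symm

lemma Tb_add (P : Par d) (i : Fin d) (ℓ : ℕ) (hLB : L ⊆ B) :
    P.Tb α i ℓ B = P.Tb α i ℓ L + P.Tb α i ℓ (B \ L) := by
  unfold Par.Tb
  rw [Finset.sum_filter, Finset.sum_filter, Finset.sum_filter, add_comm]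
  exact (Finset.sum_sdiff hLB).symm

omit [DecidableEq ι] in
lemma Gb_split (P : Par d) {i : Fin d} {ℓ : ℕ} (h : P.th i (ℓ + 1) ≤ P.th i ℓ) (C : Finset ι) :
    P.Gb α i (ℓ + 1) C = P.Gb α i ℓ C
      + ∑ v ∈ C with (α v i ^ 2 ≤ P.th i ℓ ∧ ¬ α v i ^ 2 ≤ P.th i (ℓ + 1)), α v i := by
  unfold Par.Gb
  rw [Finset.sum_filter, Finset.sum_filter, Finset.sum_filter, ← Finset.sum_add_distrib]
  refine Finset.sum_congr rfl fun v _ => ?_
  by_cases h1 : α v i ^ 2 ≤ P.th i ℓ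
  · by_cases h2 : α v i ^ 2 ≤ P.th i (ℓ + 1)
    · simp [h1, h2]
    · simp [h1, h2]
  · have h2 : ¬ α v i ^ 2 ≤ P.th i (ℓ + 1) := fun h3 => h1 (h3.trans h)
    simp [h1, h2]

omit [DecidableEq ι] in
lemma Tb_split (P : Par d) {i : Fin d} {ℓ : ℕ} (h : P.th i (ℓ + 1) ≤ P.th i ℓ) (C : Finset ι) :
    P.Tb α i (ℓ + 1) C = P.Tb α i ℓ C
      + ∑ v ∈ C with (α v i ^ 2 ≤ P.th i ℓ ∧ ¬ α v i ^ 2 ≤ P.th i (ℓ + 1)), |α v i| := by
  unfold Par.Tb
  rw [Finset.sum_filter, Finset.sum_filter, Finset.sum_filter, ← Finset.sum_add_distrib]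
  refine Finset.sum_congr rfl fun v _ => ?_
  by_cases h1 : α v i ^ 2 ≤ P.th i ℓ
  · by_cases h2 : α v i ^ 2 ≤ P.th i (ℓ + 1)
    · simp [h1, h2]
    · simp [h1, h2]
  · have h2 : ¬ α v i ^ 2 ≤ P.th i (ℓ + 1) := fun h3 => h1 (h3.trans h)
    simp [h1, h2]

omit [DecidableEq ι] in
/-- Decomposition of a coordinate into the small and the big part. -/
lemma small_add_big (P : Par d) (i : Fin d) (ℓ : ℕ) (C : Finset ι) :
    ∑ v ∈ C, α v i = ∑ v ∈ C, (if α v i ^ 2 ≤ P.th i ℓ then α v i else 0) + P.Gb α i ℓ C := by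
  unfold Par.Gb
  rw [Finset.sum_filter, ← Finset.sum_add_distrib]
  refine Finset.sum_congr rfl fun v _ => ?_
  by_cases h : α v i ^ 2 ≤ P.th i ℓ <;> simp [h]

/-- The middle point along a frozen coordinate. -/
lemma Par.Split.mid_froz (hS : P.Split α ℓ B x a L) {i : Fin d} {p q : Fin d → ℝ}
    (hq : q i - p i = ∑ v ∈ B, α v i) :
    (p i + ∑ v ∈ L, α v i) - P.Gb α i ℓ L
      = (p i + (q i - (P.Gb α i ℓ L + P.Gb α i ℓ (B \ L)))) / 2
        + (∑ v ∈ B, sh α a v * (if α v i ^ 2 ≤ P.th i ℓ then α v i else 0)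
          + ∑ v ∈ B, ee α a L v * (if α v i ^ 2 ≤ P.th i ℓ then α v i else 0)) := by
  have h1 := small_add_big (α := α) P i ℓ L
  have h2 := small_add_big (α := α) P i ℓ B
  have h3 := sum_left (α := α) (a := a) hS.hLB (fun v => if α v i ^ 2 ≤ P.th i ℓ then α v i else 0)
  have h4 := Gb_add (α := α) P i ℓ hS.hLB
  rw [h1, h3]
  rw [h2, h4] at hq
  linarith

/-- The deviation along a frozen coordinate. -/
lemma Par.Split.delta_bound (hS : P.Split α ℓ B x a L) (hα : ∀ v, ∑ i, α v i ^ 2 ≤ 1) {i : Fin d}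
    (hE : ∀ i j, |MM α B i j - (if i = j then P.lam i ℓ else 0)| ≤ 5 * (P.tau i ℓ * P.tau j ℓ))
    (hi : P.lam i ℓ < P.γ) (hT : P.Tb α i ℓ B ≤ P.b) :
    |∑ v ∈ B, sh α a v * (if α v i ^ 2 ≤ P.th i ℓ then α v i else 0)
      + ∑ v ∈ B, ee α a L v * (if α v i ^ 2 ≤ P.th i ℓ then α v i else 0)|
      ≤ 17 * P.σ * P.rho ℓ + P.σ * mm d (P.th i ℓ) := by
  have hσ := P.σ_pos
  have hγ := P.γ_pos
  have hsγ := Real.sqrt_pos.mpr hγ
  -- the small part of the shift sum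
  have e1 : ∑ v ∈ B, sh α a v * (if α v i ^ 2 ≤ P.th i ℓ then α v i else 0)
      = ∑ k, a k * MM α B k i - ∑ v ∈ B with ¬ α v i ^ 2 ≤ P.th i ℓ, sh α a v * α v i := by
    rw [← sh_sum_coord, Finset.sum_filter, ← Finset.sum_sub_distrib]
    refine Finset.sum_congr rfl fun v _ => ?_
    by_cases h : α v i ^ 2 ≤ P.th i ℓ <;> simp [h]
  have h1 := P.spill α B ℓ hE a hS.ha0 hS.ha2 hi
  have h2 : |∑ v ∈ B with ¬ α v i ^ 2 ≤ P.th i ℓ, sh α a v * α v i| ≤ 2 * P.σ * P.rho ℓ := by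
    have h3 : |∑ v ∈ B with ¬ α v i ^ 2 ≤ P.th i ℓ, sh α a v * α v i|
        ≤ (∑ k, |a k|) * P.Tb α i ℓ B := by
      refine (Finset.abs_sum_le_sum_abs _ _).trans ?_
      unfold Par.Tb
      rw [Finset.mul_sum]
      refine Finset.sum_le_sum fun v _ => ?_
      rw [abs_mul]
      exact mul_le_mul_of_nonneg_right (sh_abs_le α hα a v) (abs_nonneg _)
    have h4 := P.a_l1 ℓ a hS.ha0 hS.ha2
    have h5 := P.RR_le_rho ℓ
    have h6 := P.RR_nonneg ℓ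
    have h7 : P.Tb α i ℓ B ≤ √P.γ := hT.trans P.hbγ
    have h8 := Tb_nonneg (α := α) P i ℓ B
    have h9 : 0 ≤ ∑ k, |a k| := Finset.sum_nonneg fun _ _ => abs_nonneg _
    calc _ ≤ (∑ k, |a k|) * P.Tb α i ℓ B := h3
      _ ≤ (2 * P.σ * P.RR ℓ) * √P.γ := mul_le_mul h4 h7 h8 (by positivity)
      _ = 2 * P.σ * (√P.γ * P.RR ℓ) := by ring
      _ ≤ 2 * P.σ * P.rho ℓ := mul_le_mul_of_nonneg_left h5 (by positivity)
  have h3 := hS.N1 i
  rw [e1]
  have h4 := abs_add_le (∑ k, a k * MM α B k i - ∑ v ∈ B with ¬ α v i ^ 2 ≤ P.th i ℓ, sh α a v * α v i)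
    (∑ v ∈ B, ee α a L v * (if α v i ^ 2 ≤ P.th i ℓ then α v i else 0))
  have h5 := abs_sub (∑ k, a k * MM α B k i) (∑ v ∈ B with ¬ α v i ^ 2 ≤ P.th i ℓ, sh α a v * α v i)
  linarith

end Vale.Agent.P262H
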