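import Vale.Agent.P262H.Node3

open Finset

namespace Vale.Agent.P262H

variable {d : ℕ} {P : Par d} {ι : Type*} [DecidableEq ι] {α : ι → Fin d → ℝ}
variable {ℓ : ℕ} {B : Finset ι} {p q : Fin d → ℝ}

omit [DecidableEq ι] in
lemma Par.Inv.hE' (hI : P.Inv α ℓ B p q) :
    ∀ i j, |MM α B i j - (if i = j then P.lam i ℓ else 0)| ≤ 5 * (P.tau i ℓ * P.tau j ℓ) := hI.hE

omit [DecidableEq ι] in
lemma Par.Inv.Tb_le (hI : P.Inv α ℓ B p q) {i : Fin d} (hi : P.lam i ℓ < P.γ) :
    P.Tb α i ℓ B ≤ P.b := by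
  have h := hI.hF i hi
  have h1 := P.W_nonneg (P.age i ℓ)
  have h2 := P.Om_nonneg ℓ
  have h3 : 0 ≤ max |p i| |q i - P.Gb α i ℓ B| := le_max_of_le_left (abs_nonneg _)
  linarith

/-- Existence of a split at a node. -/
theorem Par.exists_split (hα : ∀ v, ∑ i, α v i ^ 2 ≤ 1) (hI : P.Inv α ℓ B p q) :
    ∃ a L, P.Split α ℓ B (fun i => -(p i + q i) / 2) a L := by
  have hx : ∀ k, P.γ ≤ P.lam k ℓ → |-(p k + q k) / 2| ≤ P.σ := by
    intro k hk
    obtain ⟨h1, h2⟩ := hI.hC k hk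
    rw [abs_div, abs_neg, abs_of_pos (by norm_num : (0 : ℝ) < 2), div_le_iff₀ (by norm_num)]
    have := abs_add_le (p k) (q k)
    linarith
  obtain ⟨a, ha0, hsol, ha2, ha3⟩ := P.solve α B ℓ hI.hE' _ hx
  have hl1 := P.a_l1 ℓ a ha0 ha2
  have hsmall : ∀ v, |sh α a v| ≤ 1 / 100 := by
    intro v
    have h1 := sh_abs_le α hα a v
    have h2 := P.RR_le_d ℓ
    have hσ := P.σ_pos
    have h3 := mul_le_mul_of_nonneg_left h2 (by positivity : 0 ≤ 2 * P.σ)
    have h4 := P.eta_small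
    linarith
  have hy : ∀ v ∈ B, 0 ≤ 1 / 2 + sh α a v ∧ 1 / 2 + sh α a v ≤ 1 := by
    intro v _
    have := abs_le.mp (hsmall v)
    constructor <;> linarith [this.1, this.2]
  obtain ⟨L, hLB, N1, N2, N3, N4⟩ := P.round α hα B ℓ (fun v => 1 / 2 + sh α a v) hy
  exact ⟨a, L, hLB, ha0, hsol, ha2, ha3, N1, N2, N3, N4⟩

section children

variable {a : Fin d → ℝ} {L : Finset ι}

lemma Par.energy_new (P : Par d) {i : Fin d} {ℓ : ℕ} (C : Finset ι)
    (hE : |MM α C i i - P.lam i ℓ| ≤ 5 * (P.tau i ℓ * P.tau i ℓ))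
    (hi : P.lam i ℓ < P.γ) (hage : P.age i ℓ = 0) : P.Sm α i ℓ C ≤ P.Gam i ℓ := by
  have h1 : P.Sm α i ℓ C ≤ MM α C i i := by
    unfold Par.Sm MM
    calc ∑ v ∈ C with α v i ^ 2 ≤ P.th i ℓ, α v i ^ 2 ≤ ∑ v ∈ C, α v i ^ 2 :=
          Finset.sum_le_sum_of_subset_of_nonneg (Finset.filter_subset _ _) (fun _ _ _ => sq_nonneg _)
      _ = _ := Finset.sum_congr rfl fun v _ => sq _
  have h2 := P.frozen_energy hi hE
  have e : P.Gam i ℓ = 2 * P.γ := by
    unfold Par.Gam
    rw [hage]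
    simp
  rw [e]
  linarith

lemma Par.big_empty (P : Par d) (hα : ∀ v, ∑ i, α v i ^ 2 ≤ 1) {i : Fin d} {ℓ : ℕ} (hage : P.age i ℓ = 0)
    (C : Finset ι) : P.Gb α i ℓ C = 0 ∧ P.Tb α i ℓ C = 0 := by
  have ht := P.th_of_age_zero hage
  have hne : ∀ v ∈ C, ¬ ¬ α v i ^ 2 ≤ P.th i ℓ := by
    intro v _ hn
    apply hn
    rw [ht]
    exact Par.unit_sq hα v i
  unfold Par.Gb Par.Tb
  rw [Finset.filter_false_of_mem hne]
  simp

end children

/-- The step: children of a node satisfy the invariants of the next level. -/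
theorem Par.node (hα : ∀ v, ∑ i, α v i ^ 2 ≤ 1) (hI : P.Inv α ℓ B p q)
    (hsize : 2 * P.σ + 2 < (B.card : ℝ)) :
    ∃ L ⊆ B, ∃ z : Fin d → ℝ, (∀ i, z i = p i + ∑ v ∈ L, α v i) ∧
      L.card < B.card ∧ (B \ L).card < B.card ∧
      P.Inv α (ℓ + 1) L p z ∧ P.Inv α (ℓ + 1) (B \ L) z q := by
  obtain ⟨a, L, hS⟩ := P.exists_split hα hI
  have hLB := hS.hLB
  let z : Fin d → ℝ := fun i => p i + ∑ v ∈ L, α v i
  have hz : ∀ i, z i = p i + ∑ v ∈ L, α v i := fun _ => rfl
  have hE := hI.hE'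
  have hq := hI.hq
  have hzq : ∀ i, q i - z i = ∑ v ∈ B \ L, α v i := by
    intro i
    have h1 := Finset.sum_sdiff (f := fun v => α v i) hLB
    have h2 := hq i
    simp only [hz]
    linarith
  -- children near-diagonal
  have hEL : ∀ i j, |MM α L i j - (if i = j then P.lam i (ℓ + 1) else 0)|
      ≤ 5 * (P.tau i (ℓ + 1) * P.tau j (ℓ + 1)) := fun i j => hS.hE_left hE hα i j
  have hER : ∀ i j, |MM α (B \ L) i j - (if i = j then P.lam i (ℓ + 1) else 0)|
      ≤ 5 * (P.tau i (ℓ + 1) * P.tau j (ℓ + 1)) := fun i j => hS.hE_right hE hα i j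
  -- size
  have hσ := P.σ_pos
  have hsum1 : |∑ v ∈ B, sh α a v| ≤ 1 := by
    have e : ∑ v ∈ B, sh α a v = ∑ k, a k * (q k - p k) := by
      unfold sh
      rw [Finset.sum_comm]
      refine Finset.sum_congr rfl fun k _ => ?_
      rw [hq k, Finset.mul_sum]
    rw [e]
    have h1 : ∀ k, |a k * (q k - p k)| ≤ |a k| * (2 * P.σ) := by
      intro k
      rw [abs_mul]
      by_cases hk : P.lam k ℓ < P.γ
      · rw [hS.ha0 k hk]
        simp
      · obtain ⟨h2, h3⟩ := hI.hC k (not_lt.mp hk)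
        apply mul_le_mul_of_nonneg_left _ (abs_nonneg _)
        have := abs_sub (q k) (p k)
        linarith
    calc _ ≤ ∑ k, |a k * (q k - p k)| := Finset.abs_sum_le_sum_abs _ _
      _ ≤ ∑ k, |a k| * (2 * P.σ) := Finset.sum_le_sum fun k _ => h1 k
      _ = (∑ k, |a k|) * (2 * P.σ) := by rw [Finset.sum_mul]
      _ ≤ (2 * P.σ * (d / P.γ)) * (2 * P.σ) :=
          mul_le_mul_of_nonneg_right hS.l1_small (by positivity)
      _ ≤ 1 := by
          have hγ := P.γ_pos
          have h2 := P.γ_big'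
          have e2 : 2 * P.σ * (d / P.γ) * (2 * P.σ) = 4 * P.σ ^ 2 * d / P.γ := by ring
          rw [e2, div_le_one hγ]
          nlinarith [sq_nonneg P.σ]
  have hcardL : (L.card : ℝ) = 1 / 2 * B.card + (∑ v ∈ B, sh α a v + ∑ v ∈ B, ee α a L v) := by
    have h1 := sum_left (α := α) (a := a) hLB (fun _ => (1 : ℝ))
    simp only [Finset.sum_const, nsmul_eq_mul, mul_one] at h1
    exact h1
  have hN4 := hS.N4
  have hN4' : |∑ v ∈ B, ee α a L v| ≤ P.σ := hN4
  have hs1 := abs_le.mp hsum1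
  have hs2 := abs_le.mp hN4'
  have hcLt : (L.card : ℝ) < B.card := by
    rw [hcardL]
    linarith [hs1.2, hs2.2]
  have hcard2 : ((B \ L).card : ℝ) = B.card - L.card := by
    rw [Finset.card_sdiff_of_subset hLB, Nat.cast_sub (Finset.card_le_card hLB)]
  have hcRt : ((B \ L).card : ℝ) < B.card := by
    rw [hcard2, hcardL]
    linarith [hs1.1, hs2.1]
  -- mid point on corrected coordinates
  have hzC : ∀ i, P.γ ≤ P.lam i ℓ → |z i| ≤ P.σ := by
    intro i hi
    exact hS.mid_corr hα hi (hq i) rfl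
  refine ⟨L, hLB, z, hz, by exact_mod_cast hcLt, by exact_mod_cast hcRt, ?_, ?_⟩
  · -- left child
    refine ⟨fun i => (hz i ▸ by ring), hEL, ?_, ?_, ?_⟩
    · intro i hi
      by_cases h : P.lam i ℓ < P.γ
      · rw [P.Gam_step h]
        exact (Sm_mono P i L (P.th_step h)).trans (hS.energy_left hα (hI.hS i h))
      · have h2 := hEL i i
        rw [if_pos rfl] at h2
        exact P.energy_new L h2 hi (P.age_succ_corr (not_lt.mp h))
    · intro i hi
      have hi2 := hi.trans (P.lam_succ_le i ℓ)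
      exact ⟨(hI.hC i hi2).1, hzC i hi2⟩
    · intro i hi
      by_cases h : P.lam i ℓ < P.γ
      · have hth := P.th_step h
        have hF := hI.hF i h
        have hd := hS.delta_bound hα hE h (hI.Tb_le h)
        have hmid := hS.mid_froz (p := p) (q := q) (hq i)
        have hTE := P.TE_bound h L (hS.energy_left hα (hI.hS i h))
        rw [Gb_split P hth, Tb_split P hth, P.age_succ_froz h]
        rw [Gb_add (α := α) P i ℓ hLB, Tb_add (α := α) P i ℓ hLB] at hF
        have hsplit := psi_left (p := p i) (q := q i) (z := z i) (Gl := P.Gb α i ℓ L)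
          (Gr := P.Gb α i ℓ (B \ L)) (Tl := P.Tb α i ℓ L) (Tr := P.Tb α i ℓ (B \ L))
          (El := ∑ v ∈ L with (α v i ^ 2 ≤ P.th i ℓ ∧ ¬ α v i ^ 2 ≤ P.th i (ℓ + 1)), α v i)
          (Tel := ∑ v ∈ L with (α v i ^ 2 ≤ P.th i ℓ ∧ ¬ α v i ^ 2 ≤ P.th i (ℓ + 1)), |α v i|)
          (Tb_nonneg P i ℓ _) (Finset.abs_sum_le_sum_abs _ _) hmid
        have hW := P.W_step (P.age i ℓ)
        have hO := P.Om_step ℓ
        have ehW : P.σ * mm d (P.theta (P.gg (P.age i ℓ))) = P.σ * mm d (P.th i ℓ) := rfl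
        rw [ehW] at hW
        linarith
      · have hage := P.age_succ_corr (not_lt.mp h)
        obtain ⟨h1, h2⟩ := P.big_empty hα hage L
        rw [h1, h2, hage, sub_zero, add_zero]
        have h3 := (hI.hC i (not_lt.mp h)).1
        have h4 := hzC i (not_lt.mp h)
        have h5 := P.freeze_le (ℓ + 1)
        have h6 : max |p i| |z i| ≤ P.σ := max_le h3 h4
        linarith
  · -- right child
    refine ⟨fun i => (hzq i), hER, ?_, ?_, ?_⟩
    · intro i hi
      by_cases h : P.lam i ℓ < P.γ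
      · rw [P.Gam_step h]
        exact (Sm_mono P i (B \ L) (P.th_step h)).trans (hS.energy_right hα (hI.hS i h))
      · have h2 := hER i i
        rw [if_pos rfl] at h2
        exact P.energy_new (B \ L) h2 hi (P.age_succ_corr (not_lt.mp h))
    · intro i hi
      have hi2 := hi.trans (P.lam_succ_le i ℓ)
      exact ⟨hzC i hi2, (hI.hC i hi2).2⟩
    · intro i hi
      by_cases h : P.lam i ℓ < P.γ
      · have hth := P.th_step h
        have hF := hI.hF i h
        have hd := hS.delta_bound hα hE h (hI.Tb_le h)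
        have hmid := hS.mid_froz (p := p) (q := q) (hq i)
        have hTE := P.TE_bound h (B \ L) (hS.energy_right hα (hI.hS i h))
        rw [Gb_split P hth, Tb_split P hth, P.age_succ_froz h]
        rw [Gb_add (α := α) P i ℓ hLB, Tb_add (α := α) P i ℓ hLB] at hF
        have hsplit := psi_right (p := p i) (q := q i) (z := z i) (Gl := P.Gb α i ℓ L)
          (Gr := P.Gb α i ℓ (B \ L)) (Tl := P.Tb α i ℓ L) (Tr := P.Tb α i ℓ (B \ L))
          (Er := ∑ v ∈ B \ L with (α v i ^ 2 ≤ P.th i ℓ ∧ ¬ α v i ^ 2 ≤ P.th i (ℓ + 1)), α v i)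
          (Ter := ∑ v ∈ B \ L with (α v i ^ 2 ≤ P.th i ℓ ∧ ¬ α v i ^ 2 ≤ P.th i (ℓ + 1)), |α v i|)
          (Gb_abs_le P i ℓ L) (Finset.abs_sum_le_sum_abs _ _) hmid
        have hW := P.W_step (P.age i ℓ)
        have hO := P.Om_step ℓ
        have ehW : P.σ * mm d (P.theta (P.gg (P.age i ℓ))) = P.σ * mm d (P.th i ℓ) := rfl
        rw [ehW] at hW
        linarith
      · have hage := P.age_succ_corr (not_lt.mp h)
        obtain ⟨h1, h2⟩ := P.big_empty hα hage (B \ L)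
        rw [h1, h2, hage, sub_zero, add_zero]
        have h3 := (hI.hC i (not_lt.mp h)).2
        have h4 := hzC i (not_lt.mp h)
        have h5 := P.freeze_le (ℓ + 1)
        have h6 : max |z i| |q i| ≤ P.σ := max_le h4 h3
        linarith

end Vale.Agent.P262H
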