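import Vale.Agent.P262H.Node4

open Finset

namespace Vale.Agent.P262H

variable {d : ℕ} {P : Par d} {ι : Type*} [DecidableEq ι] {α : ι → Fin d → ℝ}

/-- Euclidean vector attached to a coordinate function. -/
noncomputable abbrev EV (x : Fin d → ℝ) : EuclideanSpace ℝ (Fin d) := WithLp.toLp 2 x

omit [DecidableEq ι] in
lemma EV_norm_sq (x : Fin d → ℝ) : ‖EV x‖ ^ 2 = ∑ i, x i ^ 2 := by
  rw [EuclideanSpace.real_norm_sq_eq]

omit [DecidableEq ι] in
lemma EV_norm_le_one (hα : ∀ v, ∑ i, α v i ^ 2 ≤ 1) (v : ι) : ‖EV (α v)‖ ≤ 1 := by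
  have h1 := EV_norm_sq (α v)
  have h2 := hα v
  nlinarith [norm_nonneg (EV (α v))]

omit [DecidableEq ι] in
lemma EV_norm_of_bound {x : Fin d → ℝ} {b : ℝ} (hb : 0 ≤ b) (hx : ∀ i, |x i| ≤ b) :
    ‖EV x‖ ≤ √(d : ℝ) * b := by
  have h1 := EV_norm_sq x
  have h2 : ∑ i, x i ^ 2 ≤ (d : ℝ) * b ^ 2 := by
    calc ∑ i, x i ^ 2 ≤ ∑ _i : Fin d, b ^ 2 := by
          refine Finset.sum_le_sum fun i _ => ?_
          rw [← sq_abs]
          exact pow_le_pow_left₀ (abs_nonneg _) (hx i) 2
      _ = _ := by simp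
  have h3 : ‖EV x‖ ≤ √((d : ℝ) * b ^ 2) := Real.le_sqrt_of_sq_le (by rw [h1]; exact h2)
  rw [Real.sqrt_mul (by positivity), Real.sqrt_sq hb] at h3
  exact h3

omit [DecidableEq ι] in
lemma list_norm_le (hα : ∀ v, ∑ i, α v i ^ 2 ≤ 1) (l : List ι) :
    ‖(l.map fun v => EV (α v)).sum‖ ≤ l.length := by
  induction l with
  | nil => simp
  | cons a t ih =>
    simp only [List.map_cons, List.sum_cons, List.length_cons]
    have h1 := norm_add_le (EV (α a)) (t.map fun v => EV (α v)).sum
    have h2 := EV_norm_le_one hα a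
    push_cast
    linarith

omit [DecidableEq ι] in
/-- The left end of a node has all coordinates bounded. -/
lemma Par.Inv.left_bound {ℓ : ℕ} {B : Finset ι} {p q : Fin d → ℝ} (hI : P.Inv α ℓ B p q) (i : Fin d) :
    |p i| ≤ P.b := by
  by_cases h : P.lam i ℓ < P.γ
  · have h1 := hI.hF i h
    have h2 := P.W_nonneg (P.age i ℓ)
    have h3 := P.Om_nonneg ℓ
    have h4 := Tb_nonneg (α := α) P i ℓ B
    have h5 : |p i| ≤ max |p i| |q i - P.Gb α i ℓ B| := le_max_left _ _
    linarith
  · exact (hI.hC i (not_lt.mp h)).1.trans P.σ_le_b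

/-- The order: strong induction on the size of the block. -/
theorem Par.order (hα : ∀ v, ∑ i, α v i ^ 2 ≤ 1) (n : ℕ) :
    ∀ (ℓ : ℕ) (B : Finset ι) (p q : Fin d → ℝ), B.card = n → P.Inv α ℓ B p q →
      ∃ l : List ι, l.Nodup ∧ l.toFinset = B ∧
        ∀ k, ‖EV p + ((l.take k).map fun v => EV (α v)).sum‖ ≤ √(d : ℝ) * P.b + (2 * P.σ + 2) := by
  have hσ := P.σ_pos
  have hb0 : 0 ≤ P.b := by linarith [P.σ_le_b]
  induction n using Nat.strong_induction_on with
  | _ n ih =>
    intro ℓ B p q hn hI
    by_cases hsize : (B.card : ℝ) ≤ 2 * P.σ + 2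
    · -- leaf
      refine ⟨B.toList, B.nodup_toList, B.toList_toFinset, fun k => ?_⟩
      have h1 := EV_norm_of_bound (x := p) hb0 hI.left_bound
      have h2 := list_norm_le (α := α) hα (B.toList.take k)
      have h3 : ((B.toList.take k).length : ℝ) ≤ B.card := by
        have : (B.toList.take k).length ≤ B.toList.length := List.length_take_le' _ _
        rw [Finset.length_toList] at this
        exact_mod_cast this
      have h4 := norm_add_le (EV p) ((B.toList.take k).map fun v => EV (α v)).sum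
      linarith
    · push Not at hsize
      obtain ⟨L, hLB, z, hz, hcL, hcR, hIL, hIR⟩ := P.node hα hI hsize
      obtain ⟨l1, h1n, h1f, h1k⟩ := ih L.card (hn ▸ hcL) ℓ.succ L p z rfl hIL
      obtain ⟨l2, h2n, h2f, h2k⟩ := ih (B \ L).card (hn ▸ hcR) ℓ.succ (B \ L) z q rfl hIR
      refine ⟨l1 ++ l2, ?_, ?_, ?_⟩
      · refine List.Nodup.append h1n h2n ?_
        intro x hx1 hx2
        have h3 : x ∈ L := by rw [← h1f]; exact List.mem_toFinset.mpr hx1
        have h4 : x ∈ B \ L := by rw [← h2f]; exact List.mem_toFinset.mpr hx2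
        exact (Finset.mem_sdiff.mp h4).2 h3
      · rw [List.toFinset_append, h1f, h2f]
        exact Finset.union_sdiff_of_subset hLB
      · intro k
        rw [List.take_append, List.map_append, List.sum_append]
        by_cases hk : k ≤ l1.length
        · have e : k - l1.length = 0 := by omega
          rw [e]
          simpa using h1k k
        · have e : l1.take k = l1 := List.take_of_length_le (by omega)
          rw [e]
          have e2 : EV p + (l1.map fun v => EV (α v)).sum = EV z := by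
            have e3 : (l1.map fun v => EV (α v)).sum = ∑ v ∈ L, EV (α v) := by
              rw [← h1f, List.sum_toFinset _ h1n]
            rw [e3]
            ext i
            simp [hz i, WithLp.ofLp_sum, Finset.sum_apply]
          rw [← add_assoc, e2]
          exact h2k _

end Vale.Agent.P262H
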