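import Vale.Agent.P262H.Defs

open Finset

namespace Vale.Agent.P262H

section facts

lemma log_two_bounds : (0.6931 : ℝ) < Real.log 2 ∧ Real.log 2 < 0.6932 :=
  ⟨by linarith [Real.log_two_gt_d9], by linarith [Real.log_two_lt_d9]⟩

lemma log_three_gt : (1.09 : ℝ) < Real.log 3 := by
  have h1 : Real.log 3 = Real.log (3 : ℝ) := rfl
  have h2 : (1.09 : ℝ) = 109 / 100 := by norm_num
  -- 3 ^ 100 > e ^ 109 since e < 2.7182818286
  have h3 : Real.exp 1 < 2.7182818286 := Real.exp_one_lt_d9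
  have h4 : Real.exp (109 / 100) < 3 := by
    have h5 : Real.exp (109 / 100) ^ 100 = Real.exp 1 ^ 109 := by
      rw [← Real.exp_nat_mul, ← Real.exp_nat_mul]
      norm_num
    have h6 : Real.exp 1 ^ 109 < (3 : ℝ) ^ 100 := by
      calc Real.exp 1 ^ 109 < (2.7182818286 : ℝ) ^ 109 :=
            pow_lt_pow_left₀ h3 (Real.exp_pos _).le (by norm_num)
        _ < (3 : ℝ) ^ 100 := by norm_num
    rw [← h5] at h6
    exact lt_of_pow_lt_pow_left₀ 100 (by norm_num) h6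
  rw [h2, Real.lt_log_iff_exp_lt (by norm_num)]
  exact h4

lemma log_three_lt : Real.log 3 < (1.1 : ℝ) := by
  have h2 : (1.1 : ℝ) = 11 / 10 := by norm_num
  have h3 : 2.7182818283 < Real.exp 1 := Real.exp_one_gt_d9
  have h4 : 3 < Real.exp (11 / 10) := by
    have h5 : Real.exp (11 / 10) ^ 10 = Real.exp 1 ^ 11 := by
      rw [← Real.exp_nat_mul, ← Real.exp_nat_mul]
      norm_num
    have h6 : (3 : ℝ) ^ 10 < Real.exp 1 ^ 11 := by
      calc (3 : ℝ) ^ 10 < (2.7182818283 : ℝ) ^ 11 := by norm_num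
        _ < Real.exp 1 ^ 11 := pow_lt_pow_left₀ h3 (by norm_num) (by norm_num)
    rw [← h5] at h6
    exact lt_of_pow_lt_pow_left₀ 10 (Real.exp_pos _).le h6
  rw [h2, Real.log_lt_iff_lt_exp (by norm_num)]
  exact h4

lemma log_sixsix_lt : Real.log 6.6 < (1.9 : ℝ) := by
  have h2 : (1.9 : ℝ) = 19 / 10 := by norm_num
  have h3 : 2.7182818283 < Real.exp 1 := Real.exp_one_gt_d9
  have h4 : (6.6 : ℝ) < Real.exp (19 / 10) := by
    have h5 : Real.exp (19 / 10) ^ 10 = Real.exp 1 ^ 19 := by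
      rw [← Real.exp_nat_mul, ← Real.exp_nat_mul]
      norm_num
    have h6 : (6.6 : ℝ) ^ 10 < Real.exp 1 ^ 19 := by
      calc (6.6 : ℝ) ^ 10 < (2.7182818283 : ℝ) ^ 19 := by norm_num
        _ < Real.exp 1 ^ 19 := pow_lt_pow_left₀ h3 (by norm_num) (by norm_num)
    rw [← h5] at h6
    exact lt_of_pow_lt_pow_left₀ 10 (Real.exp_pos _).le h6
  rw [h2, Real.log_lt_iff_lt_exp (by norm_num)]
  exact h4

/-- `(5 / 3) ^ 2` exceeds `e`. -/
lemma exp_one_lt_ratio : Real.exp 1 < (5 / 3 : ℝ) ^ 2 := by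
  have h := Real.exp_one_lt_d9
  norm_num at h ⊢
  linarith

end facts

/-- Bounds for `σ`. -/
lemma sigma_bounds {n : ℝ} (hn : 1 ≤ n) :
    2 ≤ 6.6 * √(Real.log (2 * (n + 1) ^ 2)) ∧
    6.6 * √(Real.log (2 * (n + 1) ^ 2)) ≤ 11.44 * √(Real.log (n + 2)) ∧
    Real.log (6.6 * √(Real.log (2 * (n + 1) ^ 2))) ≤ 2.3 * Real.log (n + 2) := by
  set Q : ℝ := Real.log (2 * (n + 1) ^ 2) with hQ_def
  set Lg : ℝ := Real.log (n + 2) with hLg_def
  have hlog3 := log_three_gt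
  have hlog2 := log_two_bounds
  have hLg3 : Real.log 3 ≤ Lg := Real.log_le_log (by norm_num) (by linarith)
  have hLg : (1.09 : ℝ) ≤ Lg := by linarith
  have hQ1 : 3 * Real.log 2 ≤ Q := by
    have : Real.log (2 ^ 3) ≤ Q := by
      apply Real.log_le_log (by norm_num)
      nlinarith
    rw [Real.log_pow] at this
    push_cast at this
    exact this
  have hQ2 : Q ≤ 3 * Lg := by
    have : Q ≤ Real.log ((n + 2) ^ 3) := by
      apply Real.log_le_log (by positivity)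
      nlinarith [mul_pos (by linarith : (0 : ℝ) < n) (by linarith : (0 : ℝ) < n),
        pow_pos (by linarith : (0 : ℝ) < n) 3]
    rw [Real.log_pow] at this
    push_cast at this
    exact this
  have hQpos : 2 ≤ Q := by linarith
  have hsqQ : 1 ≤ √Q := by
    rw [show (1 : ℝ) = √1 by simp]
    exact Real.sqrt_le_sqrt (by linarith)
  have hsq3 : √(3 : ℝ) ≤ 1.7321 := by
    rw [show (1.7321 : ℝ) = √(1.7321 ^ 2) by rw [Real.sqrt_sq (by norm_num)]]
    exact Real.sqrt_le_sqrt (by norm_num)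
  refine ⟨by nlinarith, ?_, ?_⟩
  · have h1 : √Q ≤ √3 * √Lg := by
      rw [← Real.sqrt_mul (by norm_num)]
      exact Real.sqrt_le_sqrt hQ2
    nlinarith [Real.sqrt_nonneg Lg]
  · have h1 : Real.log (6.6 * √Q) = Real.log 6.6 + Real.log (√Q) := by
      rw [Real.log_mul (by norm_num) (by positivity)]
    have h2 : Real.log (√Q) = Real.log Q / 2 := by
      rw [Real.log_sqrt (by linarith)]
    have h3 : Real.log Q ≤ Real.log 3 + Real.log Lg := by
      rw [← Real.log_mul (by norm_num) (by linarith)]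
      exact Real.log_le_log (by linarith) hQ2
    have h4 : Real.log Lg ≤ Lg - 1 := Real.log_le_sub_one_of_pos (by linarith)
    have h5 := log_sixsix_lt
    have h6 := log_three_lt
    rw [h1, h2]
    linarith

lemma log_cst : Real.log (10 ^ 8 / 3) ≤ 17.4 := by
  have hlog3 := log_three_gt
  have hlog2 := log_two_bounds
  rw [Real.log_div (by norm_num) (by norm_num), Real.log_pow]
  have h10 : Real.log 10 < 2.3032 := by
    rw [show (10 : ℝ) = 2 * 5 by norm_num, Real.log_mul (by norm_num) (by norm_num)]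
    have h5 : Real.log 5 < 1.61 := by
      have h3 : 2.7182818283 < Real.exp 1 := Real.exp_one_gt_d9
      have h4 : (5 : ℝ) < Real.exp (161 / 100) := by
        have h5 : Real.exp (161 / 100) ^ 100 = Real.exp 1 ^ 161 := by
          rw [← Real.exp_nat_mul, ← Real.exp_nat_mul]
          norm_num
        have h6 : (5 : ℝ) ^ 100 < Real.exp 1 ^ 161 := by
          calc (5 : ℝ) ^ 100 < (2.7182818283 : ℝ) ^ 161 := by norm_num
            _ < Real.exp 1 ^ 161 := pow_lt_pow_left₀ h3 (by norm_num) (by norm_num)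
        rw [← h5] at h6
        exact lt_of_pow_lt_pow_left₀ 100 (Real.exp_pos _).le h6
      rw [show (1.61 : ℝ) = 161 / 100 by norm_num, Real.log_lt_iff_lt_exp (by norm_num)]
      exact h4
    linarith
  push_cast
  linarith

/-- The decay length. -/
lemma exists_decay {n σ : ℝ} (hn : 1 ≤ n) (hσ : 2 ≤ σ) :
    ∃ m : ℕ, (m : ℝ) ≤ 18.4 + 2.5 * Real.log n + Real.log σ ∧
      (10 ^ 8 * n ^ 2 * σ ^ 2) / (6 * σ) * (3 / 5 : ℝ) ^ (2 * m) ≤ 1 / (2 * √n) := by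
  have hσpos : 0 < σ := by linarith
  have hnpos : 0 < n := by linarith
  have hlogn0 : 0 ≤ Real.log n := Real.log_nonneg hn
  have hlogσ0 : 0 ≤ Real.log σ := Real.log_nonneg (by linarith)
  have hsqn : 1 ≤ √n := by
    rw [show (1 : ℝ) = √1 by simp]
    exact Real.sqrt_le_sqrt hn
  set γ : ℝ := 10 ^ 8 * n ^ 2 * σ ^ 2 with hγ_def
  have hγpos : 0 < γ := by positivity
  set X : ℝ := γ / (6 * σ) * (2 * √n) with hX_def
  have hXpos : 0 < X := by positivity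
  have hXeq : X = (10 ^ 8 / 3) * n ^ 2 * σ * √n := by
    rw [hX_def, hγ_def]
    field_simp
    ring
  have hlogX : Real.log X ≤ 17.4 + 2.5 * Real.log n + Real.log σ := by
    have hcst := log_cst
    rw [hXeq, Real.log_mul (by positivity) (by positivity), Real.log_mul (by positivity) (by positivity),
      Real.log_mul (by positivity) (by positivity), Real.log_pow, Real.log_sqrt (by linarith)]
    push_cast
    linarith
  refine ⟨⌈Real.log X⌉₊, ?_, ?_⟩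
  · have hpos : 0 ≤ 17.4 + 2.5 * Real.log n + Real.log σ := by positivity
    have h2 : ((⌈Real.log X⌉₊ : ℕ) : ℝ) < max (Real.log X) 0 + 1 := by
      rcases le_or_gt (Real.log X) 0 with h | h
      · have : ⌈Real.log X⌉₊ = 0 := Nat.ceil_eq_zero.mpr h
        rw [this, max_eq_right h]
        norm_num
      · rw [max_eq_left h.le]
        exact Nat.ceil_lt_add_one h.le
    have h3 : max (Real.log X) 0 ≤ 17.4 + 2.5 * Real.log n + Real.log σ := max_le hlogX hpos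
    linarith
  · set m : ℕ := ⌈Real.log X⌉₊ with hm_def
    have hm1 : Real.log X ≤ m := Nat.le_ceil _
    have h1 : X ≤ ((5 / 3 : ℝ) ^ 2) ^ m := by
      calc X = Real.exp (Real.log X) := (Real.exp_log hXpos).symm
        _ ≤ Real.exp (m : ℝ) := Real.exp_le_exp.mpr hm1
        _ = Real.exp 1 ^ m := by rw [← Real.exp_nat_mul]; norm_num
        _ ≤ _ := pow_le_pow_left₀ (Real.exp_pos _).le exp_one_lt_ratio.le m
    have h2 : ((5 / 3 : ℝ) ^ 2) ^ m * (3 / 5 : ℝ) ^ (2 * m) = 1 := by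
      rw [pow_mul, ← mul_pow, ← mul_pow]
      norm_num
    have h3 : (0 : ℝ) < (3 / 5 : ℝ) ^ (2 * m) := by positivity
    have h4 : X * (3 / 5 : ℝ) ^ (2 * m) ≤ 1 := by
      calc X * (3 / 5 : ℝ) ^ (2 * m) ≤ ((5 / 3 : ℝ) ^ 2) ^ m * (3 / 5 : ℝ) ^ (2 * m) :=
            mul_le_mul_of_nonneg_right h1 h3.le
        _ = 1 := h2
    rw [le_div_iff₀ (by positivity)]
    rw [hX_def] at h4
    calc _ = γ / (6 * σ) * (2 * √n) * (3 / 5 : ℝ) ^ (2 * m) := by ring
      _ ≤ 1 := h4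

lemma tail_small {n σ : ℝ} (hn : 1 ≤ n) (hσ : 2 ≤ σ) :
    17 * σ * (n * (5 / 2 * √(2 / (10 ^ 8 * n ^ 2 * σ ^ 2)))) ≤ 0.01 := by
  have hσpos : 0 < σ := by linarith
  have hnpos : 0 < n := by linarith
  have hsq2 : √(2 : ℝ) ≤ 1.4143 := by
    rw [show (1.4143 : ℝ) = √(1.4143 ^ 2) by rw [Real.sqrt_sq (by norm_num)]]
    exact Real.sqrt_le_sqrt (by norm_num)
  have hsqγ : √(10 ^ 8 * n ^ 2 * σ ^ 2) = 10 ^ 4 * n * σ := by
    rw [show (10 : ℝ) ^ 8 * n ^ 2 * σ ^ 2 = (10 ^ 4 * n * σ) ^ 2 by ring]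
    exact Real.sqrt_sq (by positivity)
  have h1 : √(2 / (10 ^ 8 * n ^ 2 * σ ^ 2)) = √2 / (10 ^ 4 * n * σ) := by
    rw [Real.sqrt_div (by norm_num), hsqγ]
  rw [h1]
  have h2 : 17 * σ * (n * (5 / 2 * (√2 / (10 ^ 4 * n * σ)))) = 17 * (5 / 2) * √2 / 10 ^ 4 := by
    field_simp
  rw [h2]
  rw [div_le_iff₀ (by norm_num)]
  nlinarith

/-- Everything about `b`. -/
lemma b_bounds {n σ Lg t : ℝ} (hn : 1 ≤ n) (hσ : 2 ≤ σ) (hLg : 1.09 ≤ Lg) (hn2 : n + 1 ≥ Lg)
    (hσU : σ ≤ 11.44 * √Lg) (hlogσ : Real.log σ ≤ 2.3 * Lg) (hlogn : Real.log n ≤ Lg)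
    {m : ℕ} (hm : (m : ℝ) ≤ 18.4 + 2.5 * Real.log n + Real.log σ) (ht : t ≤ 0.01) :
    σ + (25 * σ * ((2 * m : ℕ) : ℝ) + 225 / 2 * σ) + t ≤ 10 ^ 4 * n * σ ∧
    √n * (σ + (25 * σ * ((2 * m : ℕ) : ℝ) + 225 / 2 * σ) + t) + (2 * σ + 2)
      ≤ 14000 * √n * (Lg * √Lg) := by
  have hσpos : 0 < σ := by linarith
  have hlogn0 : 0 ≤ Real.log n := Real.log_nonneg hn
  have hlogσ0 : 0 ≤ Real.log σ := Real.log_nonneg (by linarith)
  have hsqLg : 1 ≤ √Lg := by
    rw [show (1 : ℝ) = √1 by simp]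
    exact Real.sqrt_le_sqrt (by linarith)
  have hsqn : 1 ≤ √n := by
    rw [show (1 : ℝ) = √1 by simp]
    exact Real.sqrt_le_sqrt hn
  have hmcast : ((2 * m : ℕ) : ℝ) = 2 * (m : ℝ) := by push_cast; ring
  rw [hmcast]
  set B : ℝ := 113.5 + 50 * (18.4 + 2.5 * Real.log n + Real.log σ) with hB
  have hbU : σ + (25 * σ * (2 * (m : ℝ)) + 225 / 2 * σ) + t ≤ σ * B + 0.01 := by
    have : σ * (m : ℝ) ≤ σ * (18.4 + 2.5 * Real.log n + Real.log σ) :=
      mul_le_mul_of_nonneg_left hm hσpos.le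
    rw [hB]
    nlinarith
  constructor
  · have h1 : Real.log n ≤ n := by linarith [Real.log_le_sub_one_of_pos (show (0 : ℝ) < n by linarith)]
    have h2 : B + 0.01 ≤ 10 ^ 4 * n := by
      rw [hB]
      nlinarith
    have h3 : σ * (B + 0.01) ≤ σ * (10 ^ 4 * n) := mul_le_mul_of_nonneg_left h2 hσpos.le
    nlinarith
  · have hpos : 0 ≤ Lg * √Lg := by positivity
    have h1 : B ≤ 1189 * Lg := by
      rw [hB]
      nlinarith
    have hB0 : 0 ≤ B := by rw [hB]; positivity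
    have h2 : σ * B ≤ (11.44 * √Lg) * (1189 * Lg) :=
      mul_le_mul hσU h1 hB0 (by positivity)
    have h3 : 1 ≤ Lg * √Lg := by nlinarith
    have hbL : σ + (25 * σ * (2 * (m : ℝ)) + 225 / 2 * σ) + t ≤ 13610 * (Lg * √Lg) := by
      nlinarith
    have hσL : 2 * σ + 2 ≤ 25 * (Lg * √Lg) := by
      have h4 : 1.09 * √Lg ≤ Lg * √Lg := mul_le_mul_of_nonneg_right hLg (by positivity)
      nlinarith
    have h5 := mul_le_mul_of_nonneg_left hbL (show 0 ≤ √n by positivity)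
    have h6 : 25 * (Lg * √Lg) ≤ √n * (25 * (Lg * √Lg)) := by nlinarith
    nlinarith

/-- Explicit parameters. -/
theorem exists_par (d : ℕ) (hd : 1 ≤ d) (L : Fin d → ℝ) (hL : ∀ i, 0 ≤ L i) :
    ∃ P : Par d, P.Λ = L ∧ √(d : ℝ) * P.b + (2 * P.σ + 2) ≤
      14000 * √(d : ℝ) * (Real.log (d + 2) * √(Real.log (d + 2))) := by
  have hn : (1 : ℝ) ≤ d := by exact_mod_cast hd
  obtain ⟨hσ2, hσU, hlogσ⟩ := sigma_bounds hn
  set σ : ℝ := 6.6 * √(Real.log (2 * ((d : ℝ) + 1) ^ 2)) with hσ_def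
  obtain ⟨m, hm1, hm2⟩ := exists_decay hn hσ2
  have ht := tail_small hn hσ2
  have hlog3 := log_three_gt
  have hLg3 : Real.log 3 ≤ Real.log ((d : ℝ) + 2) := Real.log_le_log (by norm_num) (by linarith)
  have hLg : (1.09 : ℝ) ≤ Real.log ((d : ℝ) + 2) := by linarith
  have hn2 : (d : ℝ) + 1 ≥ Real.log ((d : ℝ) + 2) := by
    have := Real.log_le_sub_one_of_pos (show (0 : ℝ) < (d : ℝ) + 2 by linarith)
    linarith
  have hlogn : Real.log (d : ℝ) ≤ Real.log ((d : ℝ) + 2) :=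
    Real.log_le_log (by linarith) (by linarith)
  obtain ⟨hb1, hb2⟩ := b_bounds hn hσ2 hLg hn2 hσU hlogσ hlogn hm1 ht
  have hσpos : 0 < σ := by linarith
  have hsqγ : √(10 ^ 8 * (d : ℝ) ^ 2 * σ ^ 2) = 10 ^ 4 * (d : ℝ) * σ := by
    rw [show (10 : ℝ) ^ 8 * (d : ℝ) ^ 2 * σ ^ 2 = (10 ^ 4 * (d : ℝ) * σ) ^ 2 by ring]
    exact Real.sqrt_sq (by positivity)
  refine ⟨{ σ := σ, γ := 10 ^ 8 * (d : ℝ) ^ 2 * σ ^ 2,
            b := σ + (25 * σ * ((2 * m : ℕ) : ℝ) + 225 / 2 * σ) +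
              17 * σ * ((d : ℝ) * (5 / 2 * √(2 / (10 ^ 8 * (d : ℝ) ^ 2 * σ ^ 2)))),
            astar := 2 * m, Λ := L, hd := hd, hσ := hσ2,
            hσ0 := le_of_eq rfl, hΛ := hL, hγ := le_of_eq rfl, hstar := hm2, hb := le_of_eq rfl,
            hbγ := by rw [hsqγ]; exact hb1 }, rfl, hb2⟩

end Vale.Agent.P262H
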