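import Vale.Agent.P262H.Order

open Finset

namespace Vale.Agent.P262H

variable {d : ℕ} {ι : Type*} [DecidableEq ι] [Fintype ι] {α : ι → Fin d → ℝ}

/-- The root of the tree: the whole family, between the two zero end positions. -/
theorem Par.root (P : Par d) (hα : ∀ v, ∑ i, α v i ^ 2 ≤ 1) (h0 : ∀ i, ∑ v, α v i = 0)
    (hL : ∀ i j, ∑ v, α v i * α v j = if i = j then P.Λ i else 0) :
    P.Inv α 0 univ 0 0 where
  hq i := by simp [h0]
  hE i j := by
    have h1 := P.tau_pos i 0
    have h2 := P.tau_pos j 0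
    rw [hL, P.lam_zero]
    simp only [sub_self, abs_zero]
    positivity
  hS i hi := by
    have h1 : P.Sm α i 0 univ ≤ ∑ v, α v i ^ 2 := by
      unfold Par.Sm
      exact Finset.sum_le_sum_of_subset_of_nonneg (Finset.filter_subset _ _)
        (fun _ _ _ => sq_nonneg _)
    have h2 : ∑ v, α v i ^ 2 = P.Λ i := by
      have := hL i i
      simp only [if_true] at this
      rw [← this]
      exact Finset.sum_congr rfl fun v _ => by ring
    have h3 : P.Gam i 0 = 2 * P.γ := by
      unfold Par.Gam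
      simp [Par.age]
    rw [h3]
    rw [P.lam_zero] at hi
    have h4 := P.γ_pos
    linarith
  hC i _ := by
    have h1 := P.σ_pos
    simp only [Pi.zero_apply, abs_zero]
    exact ⟨h1.le, h1.le⟩
  hF i _ := by
    have hage : P.age i 0 = 0 := rfl
    obtain ⟨h1, h2⟩ := P.big_empty hα hage univ
    rw [h1, h2, hage]
    have h3 := P.freeze_le 0
    have h4 := P.σ_pos
    simp only [Pi.zero_apply, sub_zero, abs_zero, max_self, add_zero]
    linarith

omit [DecidableEq ι] [Fintype ι] in
lemma EV_list_sum (l : List ι) :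
    (l.map fun v => EV (α v)).sum = EV ((l.map α).sum) := by
  induction l with
  | nil => simp
  | cons a t ih =>
    simp only [List.map_cons, List.sum_cons, ih]
    rfl

/-- The coordinate form, for a parameter set whose `Λ` are the eigenvalues. -/
theorem Par.final {N : ℕ} (P : Par d) (α : Fin N → Fin d → ℝ) (hα : ∀ n, ∑ i, α n i ^ 2 ≤ 1)
    (h0 : ∀ i, ∑ v, α v i = 0)
    (hL : ∀ i j, ∑ v, α v i * α v j = if i = j then P.Λ i else 0) :
    ∃ l : List (Fin N), l.Nodup ∧ l.toFinset = univ ∧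
      ∀ k, ∑ i, ((l.take k).map α).sum i ^ 2 ≤ (√(d : ℝ) * P.b + (2 * P.σ + 2)) ^ 2 := by
  obtain ⟨l, h1, h2, h3⟩ := Par.order (P := P) (α := α) hα _ 0 univ 0 0 rfl (P.root hα h0 hL)
  refine ⟨l, h1, h2, fun k => ?_⟩
  have h4 := h3 k
  rw [EV_list_sum] at h4
  have h5 : EV (0 : Fin d → ℝ) = 0 := rfl
  rw [h5, zero_add] at h4
  rw [← EV_norm_sq]
  exact pow_le_pow_left₀ (norm_nonneg _) h4 2

end Vale.Agent.P262H
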