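import Vale.Agent.P262H.Lyap
import Vale.Agent.P262H.KR

open Finset

namespace Vale.Agent.P262H

/-- Rounding lemma with an arbitrary finite index set of test coordinates. -/
theorem kr_gen {ι J : Type*} [DecidableEq ι] [Fintype J] [Nonempty J] (B : Finset ι)
    (l : ι → J → ℝ) (hl : ∀ v, ∑ e, l v e ^ 2 ≤ 1) (y : ι → ℝ) (hy : ∀ v ∈ B, 0 ≤ y v ∧ y v ≤ 1) :
    ∃ L ⊆ B, ∀ e, |∑ v ∈ B, ((if v ∈ L then 1 else 0) - y v) * l v e|
      ≤ 3 * √(Real.log (2 * Fintype.card J)) := by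
  classical
  let f := Fintype.equivFin J
  have hD : 0 < Fintype.card J := Fintype.card_pos
  obtain ⟨L, hL, h⟩ := kr_fin hD B (fun v c => l v (f.symm c))
    (fun v => by
      rw [Equiv.sum_comp f.symm (fun e => l v e ^ 2)]
      exact hl v) y hy
  refine ⟨L, hL, fun e => ?_⟩
  have := h (f e)
  simpa using this

variable {d : ℕ} (P : Par d)

lemma Par.th_pos (i : Fin d) (ℓ : ℕ) : 0 < P.th i ℓ :=
  P.theta_pos (by rw [P.Gam_eq]; exact P.gg_pos _)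

lemma Par.th_le_one (i : Fin d) (ℓ : ℕ) : P.th i ℓ ≤ 1 :=
  P.theta_le_one (by rw [P.Gam_eq]; exact P.gg_pos _)

include P in
/-- The position lift has small square. -/
lemma Par.lift1 {t a : ℝ} (ht : 0 < t) :
    ((if a ^ 2 ≤ t then a else 0) / mm d t) ^ 2 ≤ a ^ 2 + 1 / (2 * d) := by
  have hd := P.d_pos
  split_ifs with h
  · rw [div_pow]
    have hm := P.mm_pos ht
    rcases min_choice (1 : ℝ) (√(2 * (d : ℝ) * t)) with e | e
    · rw [mm, e]
      have : 0 < 1 / (2 * (d : ℝ)) := by positivity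
      simp only [one_pow, div_one]
      linarith
    · rw [mm, e, Real.sq_sqrt (by positivity)]
      have h1 : a ^ 2 / (2 * (d : ℝ) * t) ≤ t / (2 * (d : ℝ) * t) :=
        div_le_div_of_nonneg_right h (by positivity)
      have h2 : t / (2 * (d : ℝ) * t) = 1 / (2 * d) := by field_simp
      nlinarith [sq_nonneg a]
  · simp only [zero_div]
    have : 0 < 1 / (2 * (d : ℝ)) := by positivity
    nlinarith [sq_nonneg a]

include P in
/-- The energy lift has small square. -/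
lemma Par.lift2 {t a : ℝ} (ht : 0 < t) :
    ((if a ^ 2 ≤ t then a ^ 2 else 0) / nn d t) ^ 2 ≤ a ^ 2 + 1 / (4 * d) := by
  have hd := P.d_pos
  have hsd := P.sqrtd_ge
  split_ifs with h
  · rw [div_pow]
    rcases min_choice (√t) (2 * √(d : ℝ) * t) with e | e
    · rw [nn, e, Real.sq_sqrt ht.le]
      have h1 : (a ^ 2) ^ 2 / t ≤ a ^ 2 := by
        rw [div_le_iff₀ ht]
        nlinarith [sq_nonneg a]
      have : 0 < 1 / (4 * (d : ℝ)) := by positivity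
      linarith
    · rw [nn, e]
      have e2 : (2 * √(d : ℝ) * t) ^ 2 = 4 * d * t ^ 2 := by
        rw [mul_pow, mul_pow, Real.sq_sqrt hd.le]
        ring
      rw [e2]
      have h1 : (a ^ 2) ^ 2 / (4 * d * t ^ 2) ≤ t ^ 2 / (4 * d * t ^ 2) := by
        apply div_le_div_of_nonneg_right _ (by positivity)
        exact pow_le_pow_left₀ (sq_nonneg a) h 2
      have h2 : t ^ 2 / (4 * d * t ^ 2) = 1 / (4 * d) := by field_simp
      nlinarith [sq_nonneg a]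
  · simp only [zero_div]
    have : 0 < 1 / (4 * (d : ℝ)) := by positivity
    nlinarith [sq_nonneg a]

lemma Par.two_σ_le_tau_sq (i : Fin d) (ℓ : ℕ) : 2 * P.σ ≤ P.tau i ℓ ^ 2 := by
  rw [P.tau_sq]
  apply Real.le_sqrt_of_sq_le
  have := P.lam_nonneg i ℓ
  nlinarith

variable {ι : Type*} [DecidableEq ι] (α : ι → Fin d → ℝ)

/-- The test coordinates of a node. -/
abbrev Jt (d : ℕ) := Fin d ⊕ Fin d ⊕ (Fin d × Fin d) ⊕ Unit

lemma card_Jt (d : ℕ) : Fintype.card (Jt d) = (d + 1) ^ 2 := by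
  simp [Jt, Fintype.card_sum, Fintype.card_prod]
  ring

/-- The lift of a vector at a node. -/
noncomputable def Par.lift (ℓ : ℕ) (v : ι) : Jt d → ℝ
  | Sum.inl i => (if α v i ^ 2 ≤ P.th i ℓ then α v i else 0) / mm d (P.th i ℓ) / 2.2
  | Sum.inr (Sum.inl i) => (if α v i ^ 2 ≤ P.th i ℓ then α v i ^ 2 else 0) / nn d (P.th i ℓ) / 2.2
  | Sum.inr (Sum.inr (Sum.inl (i, j))) => 2 * P.σ / (P.tau i ℓ * P.tau j ℓ) * (α v i * α v j) / 2.2
  | Sum.inr (Sum.inr (Sum.inr _)) => 1 / 2.2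

lemma Par.lift_norm (hα : ∀ v, ∑ i, α v i ^ 2 ≤ 1) (ℓ : ℕ) (v : ι) :
    ∑ e, P.lift α ℓ v e ^ 2 ≤ 1 := by
  have hd := P.d_pos
  have hσ := P.σ_pos
  simp only [Fintype.sum_sum_type, Fintype.sum_prod_type, Par.lift]
  -- first block
  have h1 : ∑ i, ((if α v i ^ 2 ≤ P.th i ℓ then α v i else 0) / mm d (P.th i ℓ) / 2.2) ^ 2
      ≤ (1 + 1 / 2) / 2.2 ^ 2 := by
    have : ∀ i, ((if α v i ^ 2 ≤ P.th i ℓ then α v i else 0) / mm d (P.th i ℓ) / 2.2) ^ 2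
        ≤ (α v i ^ 2 + 1 / (2 * d)) / 2.2 ^ 2 := by
      intro i
      rw [div_pow _ (2.2 : ℝ)]
      exact div_le_div_of_nonneg_right (P.lift1 (P.th_pos i ℓ)) (by norm_num)
    refine (Finset.sum_le_sum fun i _ => this i).trans ?_
    rw [← Finset.sum_div, Finset.sum_add_distrib]
    apply div_le_div_of_nonneg_right _ (by norm_num)
    have e : ∑ _i : Fin d, 1 / (2 * (d : ℝ)) = 1 / 2 := by
      simp
      field_simp
    rw [e]
    linarith [hα v]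
  have h2 : ∑ i, ((if α v i ^ 2 ≤ P.th i ℓ then α v i ^ 2 else 0) / nn d (P.th i ℓ) / 2.2) ^ 2
      ≤ (1 + 1 / 4) / 2.2 ^ 2 := by
    have : ∀ i, ((if α v i ^ 2 ≤ P.th i ℓ then α v i ^ 2 else 0) / nn d (P.th i ℓ) / 2.2) ^ 2
        ≤ (α v i ^ 2 + 1 / (4 * d)) / 2.2 ^ 2 := by
      intro i
      rw [div_pow _ (2.2 : ℝ)]
      exact div_le_div_of_nonneg_right (P.lift2 (P.th_pos i ℓ)) (by norm_num)
    refine (Finset.sum_le_sum fun i _ => this i).trans ?_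
    rw [← Finset.sum_div, Finset.sum_add_distrib]
    apply div_le_div_of_nonneg_right _ (by norm_num)
    have e : ∑ _i : Fin d, 1 / (4 * (d : ℝ)) = 1 / 4 := by
      simp
      field_simp
    rw [e]
    linarith [hα v]
  have h3 : ∑ i, ∑ j, (2 * P.σ / (P.tau i ℓ * P.tau j ℓ) * (α v i * α v j) / 2.2) ^ 2
      ≤ 1 / 2.2 ^ 2 := by
    have e : ∀ i j, (2 * P.σ / (P.tau i ℓ * P.tau j ℓ) * (α v i * α v j) / 2.2) ^ 2
        = (2 * P.σ) ^ 2 * (α v i ^ 2 / P.tau i ℓ ^ 2) * (α v j ^ 2 / P.tau j ℓ ^ 2) / 2.2 ^ 2 := by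
      intro i j
      have := P.tau_pos i ℓ
      have := P.tau_pos j ℓ
      field_simp
    simp only [e]
    simp only [← Finset.sum_div]
    apply div_le_div_of_nonneg_right _ (by norm_num)
    have e2 : ∑ i, ∑ j, (2 * P.σ) ^ 2 * (α v i ^ 2 / P.tau i ℓ ^ 2) * (α v j ^ 2 / P.tau j ℓ ^ 2)
        = (2 * P.σ) ^ 2 * (∑ i, α v i ^ 2 / P.tau i ℓ ^ 2) * (∑ j, α v j ^ 2 / P.tau j ℓ ^ 2) := by
      rw [mul_assoc, Finset.sum_mul_sum, Finset.mul_sum]
      refine Finset.sum_congr rfl fun i _ => ?_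
      rw [Finset.mul_sum]
      refine Finset.sum_congr rfl fun j _ => ?_
      ring
    rw [e2]
    have h4 : ∑ i, α v i ^ 2 / P.tau i ℓ ^ 2 ≤ 1 / (2 * P.σ) := by
      calc ∑ i, α v i ^ 2 / P.tau i ℓ ^ 2 ≤ ∑ i, α v i ^ 2 / (2 * P.σ) := by
            refine Finset.sum_le_sum fun i _ => ?_
            exact div_le_div_of_nonneg_left (sq_nonneg _) (by positivity) (P.two_σ_le_tau_sq i ℓ)
        _ = (∑ i, α v i ^ 2) / (2 * P.σ) := by rw [Finset.sum_div]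
        _ ≤ _ := div_le_div_of_nonneg_right (hα v) (by positivity)
    have h5 : 0 ≤ ∑ i, α v i ^ 2 / P.tau i ℓ ^ 2 :=
      Finset.sum_nonneg fun i _ => by positivity
    have h6 : (2 * P.σ) * ∑ i, α v i ^ 2 / P.tau i ℓ ^ 2 ≤ 1 := by
      rw [le_div_iff₀ (by positivity)] at h4
      linarith
    have h7 : 0 ≤ (2 * P.σ) * ∑ i, α v i ^ 2 / P.tau i ℓ ^ 2 := by positivity
    nlinarith
  have h4 : ∑ _x : Unit, (1 / 2.2 : ℝ) ^ 2 = 1 / 2.2 ^ 2 := by
    simp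
  rw [h4]
  have hnum : (1 + 1 / 2) / (2.2 : ℝ) ^ 2 + ((1 + 1 / 4) / 2.2 ^ 2 + (1 / 2.2 ^ 2 + 1 / 2.2 ^ 2)) ≤ 1 := by
    norm_num
  linarith

/-- Outcome of the rounding at a node. -/
theorem Par.round (hα : ∀ v, ∑ i, α v i ^ 2 ≤ 1) (B : Finset ι) (ℓ : ℕ) (y : ι → ℝ)
    (hy : ∀ v ∈ B, 0 ≤ y v ∧ y v ≤ 1) :
    ∃ L ⊆ B,
      (∀ i, |∑ v ∈ B, ((if v ∈ L then 1 else 0) - y v) * (if α v i ^ 2 ≤ P.th i ℓ then α v i else 0)|
        ≤ P.σ * mm d (P.th i ℓ)) ∧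
      (∀ i, |∑ v ∈ B, ((if v ∈ L then 1 else 0) - y v) * (if α v i ^ 2 ≤ P.th i ℓ then α v i ^ 2 else 0)|
        ≤ P.σ * nn d (P.th i ℓ)) ∧
      (∀ i j, |∑ v ∈ B, ((if v ∈ L then 1 else 0) - y v) * (α v i * α v j)|
        ≤ P.tau i ℓ * P.tau j ℓ / 2) ∧
      |∑ v ∈ B, ((if v ∈ L then (1 : ℝ) else 0) - y v)| ≤ P.σ := by
  have hσ := P.σ_pos
  obtain ⟨L, hL, h⟩ := kr_gen B (P.lift α ℓ) (P.lift_norm α hα ℓ) y hy
  have hcard : 3 * √(Real.log (2 * (Fintype.card (Jt d) : ℝ))) * 2.2 ≤ P.σ := by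
    rw [card_Jt]
    have := P.hσ0
    push_cast
    linarith
  have key : ∀ (e : Jt d) (c : ι → ℝ) (m : ℝ), 0 < m →
      (∀ v, P.lift α ℓ v e = c v / m / 2.2) →
      |∑ v ∈ B, ((if v ∈ L then 1 else 0) - y v) * c v| ≤ P.σ * m := by
    intro e c m hm hc
    have h1 := h e
    have e1 : ∑ v ∈ B, ((if v ∈ L then 1 else 0) - y v) * P.lift α ℓ v e
        = (∑ v ∈ B, ((if v ∈ L then 1 else 0) - y v) * c v) / m / 2.2 := by
      rw [Finset.sum_div, Finset.sum_div]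
      refine Finset.sum_congr rfl fun v _ => ?_
      rw [hc v]
      ring
    rw [e1, abs_div, abs_div, abs_of_pos hm, abs_of_pos (by norm_num : (0 : ℝ) < 2.2),
      div_div, div_le_iff₀ (by positivity)] at h1
    refine h1.trans ?_
    nlinarith
  refine ⟨L, hL, ?_, ?_, ?_, ?_⟩
  · intro i
    exact key (Sum.inl i) _ _ (P.mm_pos (P.th_pos i ℓ)) (fun v => rfl)
  · intro i
    exact key (Sum.inr (Sum.inl i)) _ _ (P.nn_pos (P.th_pos i ℓ)) (fun v => rfl)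
  · intro i j
    have hτ : 0 < P.tau i ℓ * P.tau j ℓ := mul_pos (P.tau_pos _ _) (P.tau_pos _ _)
    have := key (Sum.inr (Sum.inr (Sum.inl (i, j)))) (fun v => α v i * α v j)
      (P.tau i ℓ * P.tau j ℓ / (2 * P.σ)) (by positivity) (fun v => by
        simp only [Par.lift]
        field_simp)
    refine this.trans (le_of_eq ?_)
    field_simp
  · have := key (Sum.inr (Sum.inr (Sum.inr ()))) (fun _ => 1) 1 (by norm_num) (fun v => by
      simp only [Par.lift]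
      norm_num)
    simpa using this

end Vale.Agent.P262H
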