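import Vale.Agent.P262H.Round

open Finset

namespace Vale.Agent.P262H

variable {d : ℕ} (P : Par d)

/-- Sum of inverses over the corrected coordinates. -/
noncomputable def Par.RR (ℓ : ℕ) : ℝ := ∑ k, if P.γ ≤ P.lam k ℓ then 1 / P.lam k ℓ else 0

lemma Par.lam_pos_of_corr {k : Fin d} {ℓ : ℕ} (h : P.γ ≤ P.lam k ℓ) : 0 < P.lam k ℓ :=
  lt_of_lt_of_le P.γ_pos h

lemma Par.RR_nonneg (ℓ : ℕ) : 0 ≤ P.RR ℓ := by
  unfold Par.RR
  refine Finset.sum_nonneg fun k _ => ?_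
  split_ifs with h
  · have := P.lam_pos_of_corr h
    positivity
  · exact le_rfl

lemma Par.RR_le_d (ℓ : ℕ) : P.RR ℓ ≤ d / P.γ := by
  have hγ := P.γ_pos
  unfold Par.RR
  calc ∑ k, (if P.γ ≤ P.lam k ℓ then 1 / P.lam k ℓ else 0) ≤ ∑ _k : Fin d, 1 / P.γ := by
        refine Finset.sum_le_sum fun k _ => ?_
        split_ifs with h
        · exact one_div_le_one_div_of_le hγ h
        · positivity
    _ = d / P.γ := by
        simp
        ring

lemma Par.RR_le_rho (ℓ : ℕ) : √P.γ * P.RR ℓ ≤ P.rho ℓ := by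
  have hγ := P.γ_pos
  have hsγ := Real.sqrt_pos.mpr hγ
  unfold Par.RR Par.rho
  rw [Finset.mul_sum]
  refine Finset.sum_le_sum fun k _ => ?_
  split_ifs with h
  · have hl := P.lam_pos_of_corr h
    have hsl := Real.sqrt_pos.mpr hl
    have h1 : √P.γ ≤ √(P.lam k ℓ) := Real.sqrt_le_sqrt h
    have h2 : P.lam k ℓ = √(P.lam k ℓ) * √(P.lam k ℓ) := (Real.mul_self_sqrt hl.le).symm
    rw [mul_one_div, div_le_div_iff₀ hl hsl, one_mul]
    nlinarith
  · simp

variable {ι : Type*} [DecidableEq ι] (α : ι → Fin d → ℝ)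

/-- Second moment entries of a block. -/
noncomputable def MM (B : Finset ι) (i j : Fin d) : ℝ := ∑ v ∈ B, α v i * α v j

omit [DecidableEq ι] in
lemma MM_comm (B : Finset ι) (i j : Fin d) : MM α B i j = MM α B j i := by
  unfold MM
  exact Finset.sum_congr rfl fun v _ => mul_comm _ _

/-- The linear shift of the fractional split attached to `a`. -/
noncomputable def sh (a : Fin d → ℝ) (v : ι) : ℝ := ∑ k, a k * α v k

omit [DecidableEq ι] in
lemma Q_eq (B : Finset ι) (w : Fin d → ℝ) :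
    ∑ v ∈ B, sh α w v ^ 2 = ∑ k, ∑ l, w k * w l * MM α B k l := by
  unfold sh MM
  simp only [sq, Finset.sum_mul_sum]
  rw [Finset.sum_comm]
  refine Finset.sum_congr rfl fun k _ => ?_
  rw [Finset.sum_comm]
  refine Finset.sum_congr rfl fun l _ => ?_
  rw [Finset.mul_sum]
  refine Finset.sum_congr rfl fun v _ => ?_
  ring

omit [DecidableEq ι] in
/-- Coercivity on the corrected coordinates. -/
lemma Par.Q_lower (B : Finset ι) (ℓ : ℕ)
    (hE : ∀ i j, |MM α B i j - (if i = j then P.lam i ℓ else 0)| ≤ 5 * (P.tau i ℓ * P.tau j ℓ))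
    (w : Fin d → ℝ) (hw : ∀ k, P.lam k ℓ < P.γ → w k = 0) :
    1 / 2 * ∑ k, P.lam k ℓ * w k ^ 2 ≤ ∑ v ∈ B, sh α w v ^ 2 := by
  classical
  have hd := P.d_pos
  rw [Q_eq]
  have e1 : ∑ k, ∑ l, w k * w l * MM α B k l
      = ∑ k, P.lam k ℓ * w k ^ 2
        + ∑ k, ∑ l, w k * w l * (MM α B k l - (if k = l then P.lam k ℓ else 0)) := by
    have e2 : ∑ k, P.lam k ℓ * w k ^ 2 = ∑ k, ∑ l, w k * w l * (if k = l then P.lam k ℓ else 0) := by
      refine Finset.sum_congr rfl fun k _ => ?_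
      rw [Finset.sum_eq_single k]
      · simp; ring
      · intro l _ hl
        simp [Ne.symm hl]
      · simp
    rw [e2, ← Finset.sum_add_distrib]
    refine Finset.sum_congr rfl fun k _ => ?_
    rw [← Finset.sum_add_distrib]
    refine Finset.sum_congr rfl fun l _ => ?_
    ring
  rw [e1]
  have h2 : |∑ k, ∑ l, w k * w l * (MM α B k l - (if k = l then P.lam k ℓ else 0))|
      ≤ 5 * (∑ k, |w k| * P.tau k ℓ) ^ 2 := by
    calc |∑ k, ∑ l, w k * w l * (MM α B k l - (if k = l then P.lam k ℓ else 0))|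
        ≤ ∑ k, ∑ l, |w k * w l * (MM α B k l - (if k = l then P.lam k ℓ else 0))| := by
          refine (Finset.abs_sum_le_sum_abs _ _).trans (Finset.sum_le_sum fun k _ => ?_)
          exact Finset.abs_sum_le_sum_abs _ _
      _ ≤ ∑ k, ∑ l, 5 * ((|w k| * P.tau k ℓ) * (|w l| * P.tau l ℓ)) := by
          refine Finset.sum_le_sum fun k _ => Finset.sum_le_sum fun l _ => ?_
          rw [abs_mul, abs_mul]
          have := mul_le_mul_of_nonneg_left (hE k l) (mul_nonneg (abs_nonneg (w k)) (abs_nonneg (w l)))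
          nlinarith
      _ = 5 * (∑ k, |w k| * P.tau k ℓ) ^ 2 := by
          rw [sq, Finset.sum_mul_sum, Finset.mul_sum]
          refine Finset.sum_congr rfl fun k _ => ?_
          rw [Finset.mul_sum]
  have h3 : (∑ k, |w k| * P.tau k ℓ) ^ 2 ≤ d * ∑ k, (|w k| * P.tau k ℓ) ^ 2 := by
    have := sq_sum_le_card_mul_sum_sq (s := (Finset.univ : Finset (Fin d))) (f := fun k => |w k| * P.tau k ℓ)
    simpa using this
  have h4 : ∀ k, 5 * (d : ℝ) * (|w k| * P.tau k ℓ) ^ 2 ≤ 1 / 2 * (P.lam k ℓ * w k ^ 2) := by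
    intro k
    by_cases hk : P.lam k ℓ < P.γ
    · rw [hw k hk]
      simp
    · push Not at hk
      have h5 := P.tau_four_corr hk
      have h6 := P.γ_ge_d
      have hl := P.lam_nonneg k ℓ
      have h7 : 5 * (d : ℝ) * P.tau k ℓ ^ 2 ≤ 1 / 2 * P.lam k ℓ := by
        refine (pow_le_pow_iff_left₀ (by positivity) (by positivity) two_ne_zero).mp ?_
        have e : (5 * (d : ℝ) * P.tau k ℓ ^ 2) ^ 2 = 25 * (d : ℝ) ^ 2 * P.tau k ℓ ^ 4 := by ring
        rw [e]
        have h8 : 400000000 * (d : ℝ) ^ 2 ≤ P.lam k ℓ := by linarith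
        have h9 : 25 * (d : ℝ) ^ 2 * P.tau k ℓ ^ 4 ≤ 25 * (d : ℝ) ^ 2 * (2 * P.lam k ℓ) :=
          mul_le_mul_of_nonneg_left h5 (by positivity)
        nlinarith [sq_nonneg (d : ℝ)]
      rw [mul_pow, sq_abs]
      nlinarith [sq_nonneg (w k)]
  have h5 : 5 * ((d : ℝ) * ∑ k, (|w k| * P.tau k ℓ) ^ 2) ≤ 1 / 2 * ∑ k, P.lam k ℓ * w k ^ 2 := by
    rw [Finset.mul_sum, Finset.mul_sum, Finset.mul_sum]
    refine Finset.sum_le_sum fun k _ => ?_
    have := h4 k
    linarith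
  have h6 := (abs_le.mp h2).1
  have h7 := mul_le_mul_of_nonneg_left h3 (by norm_num : (0 : ℝ) ≤ 5)
  linarith

omit [DecidableEq ι] in
/-- Solving the correction equation, with the energy bounds for the solution. -/
theorem Par.solve (B : Finset ι) (ℓ : ℕ)
    (hE : ∀ i j, |MM α B i j - (if i = j then P.lam i ℓ else 0)| ≤ 5 * (P.tau i ℓ * P.tau j ℓ))
    (x : Fin d → ℝ) (hx : ∀ k, P.γ ≤ P.lam k ℓ → |x k| ≤ P.σ) :
    ∃ a : Fin d → ℝ, (∀ k, P.lam k ℓ < P.γ → a k = 0) ∧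
      (∀ i, P.γ ≤ P.lam i ℓ → ∑ k, a k * MM α B k i = x i) ∧
      ∑ k, P.lam k ℓ * a k ^ 2 ≤ 4 * P.σ ^ 2 * P.RR ℓ ∧
      ∑ v ∈ B, sh α a v ^ 2 ≤ 2 * P.σ ^ 2 * P.RR ℓ := by
  classical
  let T : Matrix (Fin d) (Fin d) ℝ := fun i k =>
    if P.γ ≤ P.lam i ℓ then (if P.γ ≤ P.lam k ℓ then MM α B k i else 0) else (if i = k then 1 else 0)
  have hT : ∀ (w : Fin d → ℝ) (i : Fin d), (T.mulVecLin w) i =
      if P.γ ≤ P.lam i ℓ then ∑ k, (if P.γ ≤ P.lam k ℓ then MM α B k i else 0) * w k else w i := by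
    intro w i
    rw [Matrix.mulVecLin_apply]
    simp only [Matrix.mulVec, dotProduct, T]
    by_cases hi : P.γ ≤ P.lam i ℓ
    · simp only [hi, if_true]
    · simp [hi]
  -- for a vector supported on the corrected coordinates
  have hsupp : ∀ (w : Fin d → ℝ), (∀ k, P.lam k ℓ < P.γ → w k = 0) → ∀ i,
      ∑ k, (if P.γ ≤ P.lam k ℓ then MM α B k i else 0) * w k = ∑ k, w k * MM α B k i := by
    intro w hw i
    refine Finset.sum_congr rfl fun k _ => ?_
    by_cases hk : P.γ ≤ P.lam k ℓ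
    · simp [hk, mul_comm]
    · simp [hk, hw k (not_le.mp hk)]
  have hQ2 : ∀ (w : Fin d → ℝ), ∑ v ∈ B, sh α w v ^ 2 = ∑ i, w i * ∑ k, w k * MM α B k i := by
    intro w
    rw [Q_eq]
    refine Finset.sum_congr rfl fun i _ => ?_
    rw [Finset.mul_sum]
    refine Finset.sum_congr rfl fun k _ => ?_
    rw [MM_comm]
    ring
  have hinj : Function.Injective T.mulVecLin := by
    rw [injective_iff_map_eq_zero]
    intro w hw
    have h0 : ∀ i, (T.mulVecLin w) i = 0 := fun i => by rw [hw]; rfl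
    have hsw : ∀ k, P.lam k ℓ < P.γ → w k = 0 := by
      intro k hk
      have := h0 k
      rw [hT, if_neg (not_le.mpr hk)] at this
      exact this
    have hQ : ∑ v ∈ B, sh α w v ^ 2 = 0 := by
      rw [hQ2]
      refine Finset.sum_eq_zero fun i _ => ?_
      by_cases hi : P.lam i ℓ < P.γ
      · rw [hsw i hi, zero_mul]
      · have := h0 i
        rw [hT, if_pos (not_lt.mp hi), hsupp w hsw] at this
        rw [this, mul_zero]
    have hlow := P.Q_lower α B ℓ hE w hsw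
    rw [hQ] at hlow
    have hsum : ∑ k, P.lam k ℓ * w k ^ 2 ≤ 0 := by linarith
    have hterm : ∀ k ∈ (Finset.univ : Finset (Fin d)), 0 ≤ P.lam k ℓ * w k ^ 2 :=
      fun k _ => mul_nonneg (P.lam_nonneg k ℓ) (sq_nonneg _)
    have hz := (Finset.sum_eq_zero_iff_of_nonneg hterm).mp (le_antisymm hsum (Finset.sum_nonneg hterm))
    funext k
    by_cases hk : P.lam k ℓ < P.γ
    · exact hsw k hk
    · have h1 := hz k (Finset.mem_univ k)
      have h2 := P.lam_pos_of_corr (not_lt.mp hk)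
      have h3 : w k ^ 2 = 0 := by
        rcases mul_eq_zero.mp h1 with h | h
        · exact absurd h h2.ne'
        · exact h
      simpa using h3
  have hsurj := LinearMap.injective_iff_surjective.mp hinj
  obtain ⟨a, ha⟩ := hsurj (fun i => if P.γ ≤ P.lam i ℓ then x i else 0)
  have ha0 : ∀ i, (T.mulVecLin a) i = if P.γ ≤ P.lam i ℓ then x i else 0 := fun i => by rw [ha]
  have hsa : ∀ k, P.lam k ℓ < P.γ → a k = 0 := by
    intro k hk
    have := ha0 k
    rw [hT, if_neg (not_le.mpr hk), if_neg (not_le.mpr hk)] at this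
    exact this
  have hsol : ∀ i, P.γ ≤ P.lam i ℓ → ∑ k, a k * MM α B k i = x i := by
    intro i hi
    have := ha0 i
    rw [hT, if_pos hi, if_pos hi, hsupp a hsa] at this
    exact this
  refine ⟨a, hsa, hsol, ?_⟩
  -- the energy estimates
  have hlow := P.Q_lower α B ℓ hE a hsa
  have hQ : ∑ v ∈ B, sh α a v ^ 2 = ∑ i, a i * (if P.γ ≤ P.lam i ℓ then x i else 0) := by
    rw [hQ2]
    refine Finset.sum_congr rfl fun i _ => ?_
    by_cases hi : P.lam i ℓ < P.γ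
    · rw [hsa i hi]; simp
    · rw [if_pos (not_lt.mp hi), hsol i (not_lt.mp hi)]
  have hup : ∑ i, a i * (if P.γ ≤ P.lam i ℓ then x i else 0)
      ≤ 1 / 4 * ∑ k, P.lam k ℓ * a k ^ 2 + P.σ ^ 2 * P.RR ℓ := by
    unfold Par.RR
    rw [Finset.mul_sum, Finset.mul_sum, ← Finset.sum_add_distrib]
    refine Finset.sum_le_sum fun i _ => ?_
    by_cases hi : P.γ ≤ P.lam i ℓ
    · rw [if_pos hi, if_pos hi]
      have hl := P.lam_pos_of_corr hi
      have h1 := hx i hi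
      have h2 : x i ^ 2 ≤ P.σ ^ 2 := by
        rw [← sq_abs (x i)]
        exact pow_le_pow_left₀ (abs_nonneg _) h1 2
      have h3 : a i * x i ≤ 1 / 4 * (P.lam i ℓ * a i ^ 2) + x i ^ 2 * (1 / P.lam i ℓ) := by
        have h4 : 0 ≤ (P.lam i ℓ * a i / 2 - x i) ^ 2 := sq_nonneg _
        have e : 1 / 4 * (P.lam i ℓ * a i ^ 2) + x i ^ 2 * (1 / P.lam i ℓ) - a i * x i
            = (P.lam i ℓ * a i / 2 - x i) ^ 2 / P.lam i ℓ := by
          field_simp
          ring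
        have : 0 ≤ (P.lam i ℓ * a i / 2 - x i) ^ 2 / P.lam i ℓ := div_nonneg h4 hl.le
        linarith
      have h5 : x i ^ 2 * (1 / P.lam i ℓ) ≤ P.σ ^ 2 * (1 / P.lam i ℓ) :=
        mul_le_mul_of_nonneg_right h2 (by positivity)
      linarith
    · rw [if_neg hi, if_neg hi]
      have := mul_nonneg (P.lam_nonneg i ℓ) (sq_nonneg (a i))
      simp only [mul_zero, add_zero]
      linarith
  rw [hQ] at hlow ⊢
  constructor <;> linarith

omit [DecidableEq ι] in
/-- `ℓ¹` bound for the solution. -/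
lemma Par.a_l1 (ℓ : ℕ) (a : Fin d → ℝ) (ha0 : ∀ k, P.lam k ℓ < P.γ → a k = 0)
    (ha : ∑ k, P.lam k ℓ * a k ^ 2 ≤ 4 * P.σ ^ 2 * P.RR ℓ) :
    ∑ k, |a k| ≤ 2 * P.σ * P.RR ℓ := by
  have hσ := P.σ_pos
  have h1 : ∀ k, |a k| ≤ 1 / (4 * P.σ) * (P.lam k ℓ * a k ^ 2)
      + P.σ * (if P.γ ≤ P.lam k ℓ then 1 / P.lam k ℓ else 0) := by
    intro k
    by_cases hk : P.lam k ℓ < P.γ
    · rw [ha0 k hk, if_neg (not_le.mpr hk)]
      simp
    · rw [if_pos (not_lt.mp hk)]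
      have hl := P.lam_pos_of_corr (not_lt.mp hk)
      have e : 1 / (4 * P.σ) * (P.lam k ℓ * a k ^ 2) + P.σ * (1 / P.lam k ℓ) - |a k|
          = (P.lam k ℓ * |a k| - 2 * P.σ) ^ 2 / (4 * P.σ * P.lam k ℓ) := by
        have : a k ^ 2 = |a k| ^ 2 := (sq_abs _).symm
        rw [this]
        field_simp
        ring
      have : 0 ≤ (P.lam k ℓ * |a k| - 2 * P.σ) ^ 2 / (4 * P.σ * P.lam k ℓ) := by positivity
      linarith
  calc ∑ k, |a k| ≤ ∑ k, (1 / (4 * P.σ) * (P.lam k ℓ * a k ^ 2)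
        + P.σ * (if P.γ ≤ P.lam k ℓ then 1 / P.lam k ℓ else 0)) := Finset.sum_le_sum fun k _ => h1 k
    _ = 1 / (4 * P.σ) * ∑ k, P.lam k ℓ * a k ^ 2 + P.σ * P.RR ℓ := by
        rw [Finset.sum_add_distrib, Finset.mul_sum, Par.RR, Finset.mul_sum]
    _ ≤ 1 / (4 * P.σ) * (4 * P.σ ^ 2 * P.RR ℓ) + P.σ * P.RR ℓ := by
        have := mul_le_mul_of_nonneg_left ha (by positivity : 0 ≤ 1 / (4 * P.σ))
        linarith
    _ = 2 * P.σ * P.RR ℓ := by
        field_simp
        ring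

omit [DecidableEq ι] in
/-- The shift of a single vector is bounded by the `ℓ¹` norm of `a`. -/
lemma sh_abs_le (hα : ∀ v, ∑ i, α v i ^ 2 ≤ 1) (a : Fin d → ℝ) (v : ι) :
    |sh α a v| ≤ ∑ k, |a k| := by
  unfold sh
  refine (Finset.abs_sum_le_sum_abs _ _).trans (Finset.sum_le_sum fun k _ => ?_)
  rw [abs_mul]
  have h1 : α v k ^ 2 ≤ ∑ c, α v c ^ 2 :=
    Finset.single_le_sum (f := fun c => α v c ^ 2) (fun _ _ => sq_nonneg _) (Finset.mem_univ k)
  have h2 := hα v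
  have h3 : |α v k| ≤ 1 := abs_le_one_iff_mul_self_le_one.mpr (by nlinarith)
  have := abs_nonneg (a k)
  nlinarith

omit [DecidableEq ι] in
/-- Spill from the correction into a frozen coordinate. -/
lemma Par.spill (B : Finset ι) (ℓ : ℕ)
    (hE : ∀ i j, |MM α B i j - (if i = j then P.lam i ℓ else 0)| ≤ 5 * (P.tau i ℓ * P.tau j ℓ))
    (a : Fin d → ℝ) (ha0 : ∀ k, P.lam k ℓ < P.γ → a k = 0)
    (ha : ∑ k, P.lam k ℓ * a k ^ 2 ≤ 4 * P.σ ^ 2 * P.RR ℓ)
    {f : Fin d} (hf : P.lam f ℓ < P.γ) :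
    |∑ k, a k * MM α B k f| ≤ 15 * P.σ * P.rho ℓ := by
  have hσ := P.σ_pos
  have hγ := P.γ_pos
  have hsγ := Real.sqrt_pos.mpr hγ
  set u := √P.γ / (2 * P.σ) with hu
  have hu0 : 0 < u := by positivity
  have hterm : ∀ k, |a k * MM α B k f| ≤
      5 * (u / 2 * (P.lam k ℓ * a k ^ 2) + 2 * P.σ * (if P.γ ≤ P.lam k ℓ then 1 / √(P.lam k ℓ) else 0)) := by
    intro k
    by_cases hk : P.lam k ℓ < P.γ
    · rw [ha0 k hk, if_neg (not_le.mpr hk)]
      simp
    · have hk' := not_lt.mp hk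
      rw [if_pos hk']
      have hl := P.lam_pos_of_corr hk'
      have hsl := Real.sqrt_pos.mpr hl
      have hne : k ≠ f := by
        rintro rfl
        exact hk hf
      have h1 := hE k f
      rw [if_neg hne, sub_zero] at h1
      rw [abs_mul]
      have hτ : 0 < P.tau k ℓ * P.tau f ℓ := mul_pos (P.tau_pos _ _) (P.tau_pos _ _)
      -- the product of the scales
      have h2 : (P.tau k ℓ * P.tau f ℓ) ^ 2 ≤ 2 * √(P.lam k ℓ) * √P.γ := by
        refine (pow_le_pow_iff_left₀ (by positivity) (by positivity) two_ne_zero).mp ?_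
        have e : ((P.tau k ℓ * P.tau f ℓ) ^ 2) ^ 2 = P.tau k ℓ ^ 4 * P.tau f ℓ ^ 4 := by ring
        rw [e]
        have e2 : (2 * √(P.lam k ℓ) * √P.γ) ^ 2 = 4 * P.lam k ℓ * P.γ := by
          rw [mul_pow, mul_pow, Real.sq_sqrt hl.le, Real.sq_sqrt hγ.le]
          ring
        rw [e2]
        have h3 := P.tau_four_corr hk'
        have h4 := P.tau_four_froz hf
        have := mul_le_mul h3 h4 (by positivity) (by positivity)
        linarith
      -- AM-GM
      have h5 : |a k| * (P.tau k ℓ * P.tau f ℓ)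
          ≤ u / 2 * (P.lam k ℓ * a k ^ 2) + (P.tau k ℓ * P.tau f ℓ) ^ 2 / (2 * u * P.lam k ℓ) := by
        have e : u / 2 * (P.lam k ℓ * a k ^ 2) + (P.tau k ℓ * P.tau f ℓ) ^ 2 / (2 * u * P.lam k ℓ)
            - |a k| * (P.tau k ℓ * P.tau f ℓ)
            = (u * P.lam k ℓ * |a k| - P.tau k ℓ * P.tau f ℓ) ^ 2 / (2 * u * P.lam k ℓ) := by
          have : a k ^ 2 = |a k| ^ 2 := (sq_abs _).symm
          rw [this]
          field_simp
          ring
        have : 0 ≤ (u * P.lam k ℓ * |a k| - P.tau k ℓ * P.tau f ℓ) ^ 2 / (2 * u * P.lam k ℓ) := by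
          positivity
        linarith
      have h6 : (P.tau k ℓ * P.tau f ℓ) ^ 2 / (2 * u * P.lam k ℓ) ≤ 2 * P.σ * (1 / √(P.lam k ℓ)) := by
        rw [div_le_iff₀ (by positivity)]
        have e3 : P.lam k ℓ = √(P.lam k ℓ) * √(P.lam k ℓ) := (Real.mul_self_sqrt hl.le).symm
        have e4 : 2 * P.σ * (1 / √(P.lam k ℓ)) * (2 * u * P.lam k ℓ) = 2 * √P.γ * √(P.lam k ℓ) := by
          rw [hu]
          field_simp
          exact (Real.sq_sqrt hl.le).symm
        rw [e4]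
        linarith
      have h7 := mul_le_mul_of_nonneg_left h1 (abs_nonneg (a k))
      nlinarith
  calc |∑ k, a k * MM α B k f| ≤ ∑ k, |a k * MM α B k f| := Finset.abs_sum_le_sum_abs _ _
    _ ≤ ∑ k, 5 * (u / 2 * (P.lam k ℓ * a k ^ 2) + 2 * P.σ * (if P.γ ≤ P.lam k ℓ then 1 / √(P.lam k ℓ) else 0)) :=
        Finset.sum_le_sum fun k _ => hterm k
    _ = 5 * (u / 2 * ∑ k, P.lam k ℓ * a k ^ 2 + 2 * P.σ * P.rho ℓ) := by
        rw [← Finset.mul_sum, Finset.sum_add_distrib, ← Finset.mul_sum, ← Finset.mul_sum, Par.rho]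
    _ ≤ 15 * P.σ * P.rho ℓ := by
        have h1 := P.RR_le_rho ℓ
        have h2 : u / 2 * ∑ k, P.lam k ℓ * a k ^ 2 ≤ u / 2 * (4 * P.σ ^ 2 * P.RR ℓ) :=
          mul_le_mul_of_nonneg_left ha (by positivity)
        have h3 : u / 2 * (4 * P.σ ^ 2 * P.RR ℓ) = P.σ * (√P.γ * P.RR ℓ) := by
          rw [hu]
          field_simp
          ring
        have h4 : P.σ * (√P.γ * P.RR ℓ) ≤ P.σ * P.rho ℓ := mul_le_mul_of_nonneg_left h1 hσ.le
        nlinarith

end Vale.Agent.P262H
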